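import Vale.Agent.P237.Petty.Cor.Grid.Cell

/-!
# P237: a state lies in the box of its row
-/

namespace Vale.Agent.P237.Petty.Cor.Grid.Tiny

open MeasureTheory Set Grid Cell
open Lift (circLow circHigh)
open Vale.Agent.P100.Bernstein (Expr)

/-- The point of a state lies in the box of its row. -/
theorem box_mem {C : Cell} {T : List Slab} {Q : RowD} {j : ℕ}
    (hT : tableOk (C.D.p + 1) T = true) (hcst : cstOk C.D C.k C.l0 C.l1 = true)
    (he1 : 0 ≤ C.k.eVal.c1)
    (he2 : C.k.eVal.c0 * scl + C.k.eVal.c1 * C.l1 ≤ C.eMax * scl)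
    (hco : C.D.coefOk Q = true) (hdh : C.dhOk T Q j = true) (hvm : C.vmOk Q = true)
    (hG : 0 ≤ C.D.gz) {ell s t a r q : ℝ} (h : FlatState C.D.p ell s t a r q)
    (hR : RowAt C.D Q.R s) (hl0 : (C.l0 : ℝ) ≤ sR * ell) (hl1 : sR * ell ≤ C.l1)
    (h1 : (Q.s0 : ℝ) ≤ sR * s) (h2 : sR * s ≤ Q.s1) :
    InB (C.box Q) ⟨s, (t - s) / s, 1 / r, ell⟩ := by
  have S : (0 : ℝ) < sR := by norm_num
  have hs := h.state.s_mem
  have F := facts_of_state hcst h hR hG hl0 hl1
  have hell : 0 ≤ ell := by
    simp only [cstOk, expOk, Bool.and_eq_true, decide_eq_true_eq] at hcst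
    have : (0 : ℝ) ≤ C.l0 := by exact_mod_cast hcst.2.1.1.1
    norm_num [sR] at hl0
    linarith
  have eV : Real.exp ell ≤ C.k.eVal.ev ell := by
    simp only [cstOk, Bool.and_eq_true] at hcst
    have := expOk_sound hcst.1.2 hl0 hl1
    norm_num at this
    exact this
  have hE := eMax_ge he1 he2 hl1 eV
  have ht := h.state.t_mem
  have hs0 := hs.1.ne'
  have hv : 0 < 1 / r := one_div_pos.2 h.state.rate_pos
  have hz : 0 < 1 - s ^ 2 := one_sub_sq_pos hs.1.le hs.2
  have hb1 : (Q.s1 : ℝ) / sR < 1 ∧ 0 ≤ (Q.s0 : ℝ) ∧ s ≤ (Q.s1 : ℝ) / sR := by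
    simp only [Par.coefOk, Bool.and_eq_true, decide_eq_true_eq] at hco
    obtain ⟨⟨⟨⟨⟨⟨⟨⟨⟨⟨⟨⟨⟨⟨⟨-, -⟩, c1⟩, c2⟩, -⟩, -⟩, -⟩, -⟩, -⟩, -⟩, -⟩, -⟩, -⟩, -⟩, -⟩, -⟩ := hco
    refine ⟨?_, by exact_mod_cast c1, by rw [le_div_iff₀ S]; linarith⟩
    rw [div_lt_one S]
    have := (Int.cast_lt (R := ℝ)).2 c2
    simpa [scl, sR] using this
  have hv1 : sR * (1 / r) ≤ Q.vm := by
    simp only [vmOk, Bool.or_eq_true, Bool.and_eq_true, decide_eq_true_eq] at hvm
    rcases hvm with c | ⟨n0, n1⟩
    · have c' := (Int.cast_le (R := ℝ)).2 c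
      push_cast [scl] at c'
      have h3 : (1 / r) * (1 - ((Q.s1 : ℝ) / sR) ^ 2) ≤ (C.D.p : ℝ) + 3 := by
        have h4 := h.state.sq_le
        rw [div_eq_mul_one_div] at h4
        have h5 := mul_le_mul_of_nonneg_left
          (pow_le_pow_left₀ hs.1.le hb1.2.2 2) hv.le
        have h6 := mul_le_mul_of_nonneg_left (show 1 - t ≤ 1 by linarith [ht.1])
          (show (0 : ℝ) ≤ (C.D.p : ℝ) + 3 by positivity)
        linarith
      have hpos' : 0 < sR ^ 2 - (Q.s1 : ℝ) ^ 2 := by
        have := hb1.1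
        rw [div_lt_one S] at this
        have : (0 : ℝ) ≤ Q.s1 := le_trans hb1.2.1 (h1.trans h2)
        nlinarith
      refine le_of_mul_le_mul_right ?_ hpos'
      have h7 := mul_le_mul_of_nonneg_left h3 (show (0 : ℝ) ≤ sR ^ 3 by positivity)
      rw [show sR ^ 3 * (1 / r * (1 - ((Q.s1 : ℝ) / sR) ^ 2)) =
        sR * (1 / r) * (sR ^ 2 - (Q.s1 : ℝ) ^ 2) by field_simp] at h7
      simp only [sR] at h7 ⊢
      linarith
    · have m0 := nonneg1_sound n0 h1 h2
      have m1 := nonneg1_sound n1 h1 h2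
      simp only [Expr.eval, Q2.eval_expr, eval_cE] at m0 m1
      push_cast [scl] at m0 m1
      have hp0 : 0 < Q.R.hiL.ev s := by
        have : (0 : ℝ) < (1 : ℝ) / sR := by positivity
        linarith
      have hz' := F.haz
      simp only [hazV] at hz'
      have hev : C.k.eVal.ev ell ≤ (C.eMax : ℝ) / sR := by
        simp only [L2.ev]
        refine div_le_div_of_nonneg_right ?_ S.le
        have a1 : (0 : ℝ) ≤ C.k.eVal.c1 := by exact_mod_cast he1
        have a2 := (Int.cast_le (R := ℝ)).2 he2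
        push_cast [scl] at a2
        have a3 := mul_le_mul_of_nonneg_left hl1 a1
        simp only [sR] at a3
        linarith
      have k1 := mul_le_mul_of_nonneg_left hev hp0.le
      have hL0 : 0 ≤ Q.R.loU.ev s := nonneg_of_mul_nonneg_left
        ((intervalIntegral.integral_nonneg hs.1.le fun v _ => pow_nonneg (Real.sqrt_nonneg _) _).trans
          hR.loU) (pow_pos h.state.arc_pos' _)
      have k2 := mul_le_mul_of_nonneg_left hev hL0
      have e1 : ((C.eMax : ℝ) - 16777216) / sR = (C.eMax : ℝ) / sR - 1 := by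
        simp only [sR]; ring
      rw [e1] at m1
      have k3 : (1 / r) * Q.R.hiL.ev s ≤ (Q.vm : ℝ) / sR * Q.R.hiL.ev s := by linarith
      have k4 := le_of_mul_le_mul_right k3 hp0
      rw [le_div_iff₀ S] at k4
      linarith
  refine ⟨h1, h2, ?_, ?_, ?_, hv1, hl0, hl1⟩
  · simp only [Cell.box, scl]
    push_cast
    rw [← mul_div_assoc, le_div_iff₀ hs.1]
    simp only [sR]
    linarith [ht.1]
  · simp only [Cell.box]
    rw [← mul_div_assoc, div_le_iff₀ hs.1]
    simp only [Cell.dhOk, Bool.or_eq_true] at hdh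
    rcases hdh with (c | c) | c
    · simp only [decide_eq_true_eq] at c
      have c' := (Int.cast_le (R := ℝ)).2 c
      push_cast [scl] at c'
      have hs0' := hb1.2.1
      have hd : 0 ≤ sR + (Q.dh : ℝ) := by
        by_contra hn
        have := mul_nonpos_of_nonneg_of_nonpos hs0' (not_le.1 hn).le
        simp only [sR] at this
        linarith
      have h4 := mul_le_mul_of_nonneg_right h1 hd
      have h5 := mul_lt_mul_of_pos_left ht.2 (show (0 : ℝ) < sR ^ 2 by positivity)
      refine le_of_mul_le_mul_left ?_ S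
      simp only [sR] at h4 h5 ⊢
      linarith
    · split at c
      next σ hσ =>
        simp only [Bool.and_eq_true, decide_eq_true_eq] at c
        obtain ⟨⟨hcl, hx⟩, hn⟩ := c
        have hmem := List.mem_of_getElem? hσ
        have hv' := (tableOk_sound hT) σ hmem
        set x := (σ.x1 : ℝ) / sR with hxd
        set c := (σ.cl1 : ℝ) / sR with hcd
        have hc0 : 0 < c := div_pos (by exact_mod_cast hcl) S
        have n := nonneg1_sound hn h1 h2
        simp only [Expr.eval, Q2.eval_expr, eval_cE] at n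
        push_cast at n
        rw [sub_div, ← hcd] at n
        have hlow := h.low
        have hE0 : 0 ≤ (C.eMax : ℝ) / sR := (Real.exp_pos _).le.trans hE
        have hC0 : 0 ≤ circLow C.D.p s :=
          intervalIntegral.integral_nonneg hs.1.le fun v _ => pow_nonneg (Real.sqrt_nonneg _) _
        have h3 : circLow C.D.p t < c := by
          have := mul_le_mul hE hR.massU hC0 hE0
          have : (0 : ℝ) < 1 / sR := by positivity
          linarith
        have htx : t < x := by
          by_contra hn'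
          have hle : circLow C.D.p x ≤ circLow C.D.p t := by
            refine intervalIntegral.integral_mono_interval le_rfl hv'.node1.1 (not_lt.1 hn') ?_
              ((continuous_arc.pow _).intervalIntegrable _ _)
            filter_upwards with u using pow_nonneg (Real.sqrt_nonneg _) _
          linarith [hv'.cl1]
        have hx0 : 0 < x := ht.1.trans htx
        have hcc := (concaveOn_circLow C.D.p).2 (show (0 : ℝ) ∈ Icc (0 : ℝ) 1 by simp) hv'.node1
          (show 0 ≤ 1 - t / x by rw [sub_nonneg, div_le_one hx0]; exact htx.le)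
          (div_nonneg ht.1.le hx0.le) (by ring)
        simp only [smul_eq_mul, mul_zero, zero_add] at hcc
        rw [div_mul_cancel₀ _ hx0.ne'] at hcc
        have e0 : circLow C.D.p 0 = 0 := intervalIntegral.integral_same
        rw [e0, mul_zero, zero_add] at hcc
        have h4 : t / x * c ≤ (C.eMax : ℝ) / sR * s :=
          ((mul_le_mul_of_nonneg_left hv'.cl1 (div_nonneg ht.1.le hx0.le)).trans hcc).trans
            (hlow.trans (mul_le_mul hE (circLow_le (Ioo_subset_Icc_self hs)) hC0 hE0))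
        rw [div_mul_eq_mul_div, div_le_iff₀ hx0] at h4
        have hx' := (Int.cast_le (R := ℝ)).2 hx
        push_cast [scl] at hx'
        have h5 : (C.eMax : ℝ) / sR * x ≤ (1 + (Q.dh : ℝ) / sR) * c := by
          rw [hxd, hcd]
          field_simp
          simp only [sR] at hx' ⊢
          linarith
        have h6 := mul_le_mul_of_nonneg_left h5 hs.1.le
        have h7 : t ≤ s * (1 + (Q.dh : ℝ) / sR) := le_of_mul_le_mul_right (by linarith) hc0
        have h8 := mul_le_mul_of_nonneg_left h7 S.le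
        rw [show sR * (s * (1 + (Q.dh : ℝ) / sR)) = s * sR + s * Q.dh by field_simp] at h8
        linarith
      next => simp at c
    · simp only [Bool.and_eq_true, decide_eq_true_eq] at c
      obtain ⟨hd, hx⟩ := c
      have hd' : 0 ≤ sR + (Q.dh : ℝ) := by
        have := (Int.cast_le (R := ℝ)).2 hd
        push_cast [scl] at this
        simpa [sR] using this
      have hb0 : 0 ≤ (Q.s1 : ℝ) / sR := hs.1.le.trans hb1.2.2
      have hbz : 0 < 1 - ((Q.s1 : ℝ) / sR) ^ 2 := one_sub_sq_pos hb0 hb1.1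
      have hc := pow_pos h.state.arc_pos' (C.D.p + 1)
      have e4 := arc_pow_sq C.D.p hs.1.le hs.2.le
      have h3 : t ^ 2 * (1 - ((Q.s1 : ℝ) / sR) ^ 2) ^ (C.D.p + 1) ≤ (1 / r * s) ^ 2 := by
        have h4 := h.state.low.trans (circLow_le (Ioo_subset_Icc_self hs))
        rw [show a ^ (C.D.p + 1) = arc s ^ (C.D.p + 1) / (1 / r) by
          rw [h.state.rate_eq]; field_simp, mul_div_assoc', div_le_iff₀ hv] at h4
        have h5 := pow_le_pow_left₀ (mul_nonneg ht.1.le hc.le) h4 2
        rw [mul_pow, e4] at h5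
        have h6 : (1 - ((Q.s1 : ℝ) / sR) ^ 2) ^ (C.D.p + 1) ≤ (1 - s ^ 2) ^ (C.D.p + 1) :=
          pow_le_pow_left₀ hbz.le (by linarith [pow_le_pow_left₀ hs.1.le hb1.2.2 2]) _
        refine le_trans (mul_le_mul_of_nonneg_left h6 (sq_nonneg t)) (h5.trans (le_of_eq ?_))
        ring
      have hx' : (Q.vm : ℝ) ^ 2 ≤
          (sR + (Q.dh : ℝ)) ^ 2 * (1 - ((Q.s1 : ℝ) / sR) ^ 2) ^ (C.D.p + 1) := by
        have c' := (Int.cast_le (R := ℝ)).2 hx
        push_cast [scl] at c'
        refine le_of_mul_le_mul_right ?_ (pow_pos (mul_pos S S) (C.D.p + 1))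
        rw [mul_assoc, ← mul_pow, sub_mul, one_mul]
        rw [show ((Q.s1 : ℝ) / sR) ^ 2 * (sR * sR) = (Q.s1 : ℝ) * Q.s1 by field_simp]
        norm_num [sR] at c' ⊢
        exact c'
      have h7 : (sR * t) ^ 2 ≤ (s * (sR + (Q.dh : ℝ))) ^ 2 := by
        refine le_of_mul_le_mul_right ?_ (pow_pos hbz (C.D.p + 1))
        have h8 := mul_le_mul_of_nonneg_left h3 (sq_nonneg sR)
        have h9 := mul_le_mul_of_nonneg_left (pow_le_pow_left₀ (mul_pos S hv).le hv1 2) (sq_nonneg s)
        have h10 := mul_le_mul_of_nonneg_left hx' (sq_nonneg s)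
        linarith
      have h11 := le_of_pow_le_pow_left₀ two_ne_zero (mul_nonneg hs.1.le hd') h7
      linarith
  · simp only [Cell.box, Int.cast_zero]
    positivity

end Vale.Agent.P237.Petty.Cor.Grid.Tiny
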