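import Vale.Agent.P237.Petty.Cor.Grid.Tiny.EndReal

/-!
# P237: the sign of a tiny cell near the end
-/

namespace Vale.Agent.P237.Petty.Cor.Grid.Tiny

open MeasureTheory Set Grid
open Vale.Agent.P100.Bernstein (Expr)

variable {E : EndD} {P : ParT} {k : CstT} {l0 l1 : ℤ}

/-- The bounds of the potentials on the end. -/
theorem potOk_sound (hp : E.potOk P = true) (hb : P.pot.Bracket) {s : ℝ}
    (h1 : (E.xe : ℝ) ≤ sR * s) (hs1 : s ≤ 1) :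
    |evE P.D.K s| ≤ (E.Kb : ℝ) / sR ∧ |dE P.D.K s| ≤ (E.Kd : ℝ) / sR ∧
      |P.pot.sb s| ≤ (E.F0 : ℝ) / sR * s ∧
      |P.pot.sb' s * s - P.pot.sb s| ≤ (E.F1 : ℝ) / sR * s ^ 2 ∧ |P.pot.c0| ≤ E.cB := by
  simp only [EndD.potOk, Bool.and_eq_true] at hp
  obtain ⟨⟨⟨⟨⟨⟨⟨⟨⟨n1, n2⟩, n3⟩, n4⟩, n5⟩, n6⟩, n7⟩, n8⟩, n9⟩, n10⟩ := hp
  have h2 : sR * s ≤ ((scl : ℤ) : ℝ) := by
    simp only [scl, sR]
    push_cast
    linarith
  have N : ∀ {e : Expr}, nonneg1 e E.xe scl = true → 0 ≤ e.eval [s] :=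
    fun he => nonneg1_sound he h1 h2
  have m1 := N n1
  have m2 := N n2
  have m3 := N n3
  have m4 := N n4
  have m5 := N n5
  have m6 := N n6
  have m7 := N n7
  have m8 := N n8
  have m9 := nonneg1_sound n9 (x := 0) (by simp) (by simp)
  have m10 := nonneg1_sound n10 (x := 0) (by simp) (by simp)
  simp only [Expr.eval, eval_evX, eval_dX, eval_cE, Par.eval_sbX, Par.eval_sbX', c0X_eval,
    List.getD_cons_zero] at m1 m2 m3 m4 m5 m6 m7 m8 m9 m10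
  push_cast at m9 m10
  obtain ⟨hb0, hbl, hbu⟩ := hb
  have hL : 0 < (P.D.bl : ℝ) / sR := div_pos (Int.cast_pos.2 hb0) (by norm_num)
  have hU : 0 < (P.D.bu : ℝ) / sR := (Ident.b0_pos _).trans_le hbu
  refine ⟨abs_le.2 ⟨by linarith, by linarith⟩, abs_le.2 ⟨by linarith, by linarith⟩,
    abs_le.2 ⟨by linarith, by linarith⟩,
    abs_le.2 ⟨by linarith, by linarith⟩, abs_le.2 ⟨?_, ?_⟩⟩
  · refine le_of_mul_le_mul_right ?_ (mul_pos hU hU)
    have := c0_upper P.pot (U := (P.D.bu : ℝ) / sR) hbu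
    linarith
  · refine le_of_mul_le_mul_right ?_ (mul_pos hL hL)
    have := c0_lower P.pot (L := (P.D.bl : ℝ) / sR) hL.le hbl
    linarith

/-- The higher order bound of the end. -/
noncomputable def endRest (E : EndD) (P : ParT) : ℝ :=
  (E.cT : ℝ) / sR * ((E.cT : ℝ) / sR) *
      ((E.F1 : ℝ) / sR + P.D.nu * ((P.D.p : ℝ) + 4) * P.D.g ^ 2) +
    ((P.D.p : ℝ) + 1) * ((E.F0 : ℝ) / sR) +
    2 * (E.U : ℝ) * ((E.F0 : ℝ) / sR + P.D.nu * P.D.g ^ 2)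

/-- The error of the coefficient of `x`. -/
noncomputable def endErr (E : EndD) (P : ParT) : ℝ :=
  (E.cT : ℝ) / sR * (((P.D.p : ℝ) + 1) * ((E.Kb : ℝ) / sR)) +
    (E.cT : ℝ) / sR * ((E.cT : ℝ) / sR) * ((E.cT : ℝ) / sR) *
      ((E.Kd : ℝ) / sR + (E.cB : ℝ) + endRest E P)

theorem errX_eval : (E.errX P).eval [(0 : ℝ)] = endErr E P := by
  simp only [EndD.errX, EndD.restX, endErr, endRest, Expr.eval, eval_cE, Par.nu, Par.g]
  push_cast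
  ring

/-- The condition below one, above the threshold. -/
theorem mid_ok (hmid : nonneg1 (E.midX P) E.wh scl = true) {w r : ℝ}
    (hwv : w ^ (P.D.p + 1) = 1 / r) (h1 : (E.wh : ℝ) / sR ≤ w) (h2 : w ≤ 1) :
    0 ≤ P.D.gz * (((P.D.p : ℝ) + 1) * (w - 1)) + (E.Gm : ℝ) / sR * (1 - 1 / r) := by
  have c1 : (E.wh : ℝ) ≤ sR * w := by rw [div_le_iff₀ (by norm_num)] at h1; linarith
  have c2 : sR * w ≤ ((scl : ℤ) : ℝ) := by simp only [scl, sR]; push_cast; linarith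
  have m := nonneg1_sound hmid c1 c2
  simp only [EndD.midX, Expr.eval, eval_cE, List.getD_cons_zero, hwv] at m
  push_cast at m
  rw [Par.gz]
  linarith

/-- The condition below the threshold. -/
theorem low_ok (hlow : nonneg1 (E.lowX P) 0 E.wh = true) {w r : ℝ}
    (hwv : w ^ (P.D.p + 1) = 1 / r) (h0 : 0 < w) (h1 : w ≤ (E.wh : ℝ) / sR) :
    0 ≤ P.D.gz * (((P.D.p : ℝ) + 1) * (w - 1)) + (E.Gm : ℝ) / sR * (1 - 1 / r) +
      (E.SP : ℝ) / sR * (1 / 2 - 1 / r) := by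
  have c1 : ((0 : ℤ) : ℝ) ≤ sR * w := by push_cast; positivity
  have c2 : sR * w ≤ E.wh := by rw [le_div_iff₀ (by norm_num)] at h1; linarith
  have m := nonneg1_sound hlow c1 c2
  simp only [EndD.lowX, EndD.midX, Expr.eval, eval_cE, List.getD_cons_zero, hwv] at m
  push_cast at m
  rw [Par.gz]
  linarith

/-- The condition above one. -/
theorem above_ok (hcov : EndD.coverW scl E.wM E.ps = true)
    (hps : E.ps.all (E.upOk P k l1) = true) (E' : ℤ × ℤ) (hE : E' = (E.G1, E.S1) ∨ E' = (E.G2, E.S2))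
    {w r ell x : ℝ} (hw : 0 < w)
    (hwv : w ^ (P.D.p + 1) = 1 / r) (h1 : 1 ≤ w) (h2 : w ≤ (E.wM : ℝ) / sR) (hell : 0 ≤ ell)
    (hlL : ell ≤ (l1 : ℝ) / sR) (hSP : 0 ≤ (E'.2 : ℝ) / sR)
    (hcut : w * w - 1 - (k.k.eCut.c1 : ℝ) / sR * ell ≤ 2 * x * (w * w))
    (htail : 1 / r * (((P.D.p : ℝ) + 1) * w * (w - 1) * (1 + 5 * w) -
      ell * (w * w) * (4 + 2 * w)) ≤ ((P.D.p : ℝ) + 4) * x * (w * w * (4 + 2 * w))) :
    0 ≤ (E.Wl : ℝ) / sR * ell + P.D.gz * (((P.D.p : ℝ) + 1) * (w - 1)) -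
      (E'.1 : ℝ) / sR * (1 / r - 1) + (E'.2 : ℝ) / sR * x := by
  have S : (0 : ℝ) < sR := by norm_num
  have c1 : ((scl : ℤ) : ℝ) ≤ sR * w := by simp only [scl, sR]; push_cast; linarith
  have c2 : sR * w ≤ E.wM := by rw [le_div_iff₀ S] at h2; linarith
  obtain ⟨e, he, e1, e2⟩ := EndD.coverW_mem E.ps scl E.wM hcov w c1 c2
  have hup := List.all_eq_true.1 hps e he
  simp only [EndD.upOk, Bool.and_eq_true, decide_eq_true_eq] at hup
  obtain ⟨⟨⟨⟨⟨t0, t1⟩, u0⟩, u1⟩, u2⟩, u3⟩ := hup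
  obtain ⟨uA, uB⟩ : nonneg1 (E.upX P k E'.1 E'.2 e.2.2 (.num 0)) e.1 e.2.1 = true ∧
      nonneg1 (E.upX P k E'.1 E'.2 e.2.2 (cE l1)) e.1 e.2.1 = true := by
    rcases hE with rfl | rfl
    · exact ⟨u0, u1⟩
    · exact ⟨u2, u3⟩
  have mA := nonneg1_sound uA e1 e2
  have mB := nonneg1_sound uB e1 e2
  simp only [EndD.upX, Expr.eval, eval_cE, List.getD_cons_zero, hwv] at mA mB
  push_cast [scl] at mA mB
  have t1' := (Int.cast_le (R := ℝ)).2 t1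
  push_cast [scl] at t1'
  have et : ((16777216 : ℝ) - (e.2.2 : ℝ)) / sR = 1 - (e.2.2 : ℝ) / sR := by
    simp only [sR]; ring
  rw [et] at mA mB
  refine above_high (th := (e.2.2 : ℝ) / sR) (L := (l1 : ℝ) / sR)
    (k2 := (k.k.eCut.c1 : ℝ) / sR) (Nat.cast_nonneg P.D.p) (div_nonneg (Int.cast_nonneg t0) S.le)
    (by rw [div_le_one S]; simp only [sR]; linarith) hSP hw hell hlL hcut htail ?_ ?_
  · rw [Par.gz]; linarith
  · rw [Par.gz]; linarith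

theorem abs_c_mul {c cT K Kb : ℝ} (hc : 0 ≤ c) (hcT : c ≤ cT) (hK : |K| ≤ Kb) :
    |c * K| ≤ cT * Kb := by
  rw [abs_mul, abs_of_nonneg hc]
  exact mul_le_mul hcT hK (abs_nonneg _) (hc.trans hcT)

/-- The conditions on the coefficients above the diagonal. -/
theorem highOk_sound (h : E.highOk P = true) {s : ℝ} (h1 : (E.xe : ℝ) ≤ sR * s) (hs1 : s ≤ 1) :
    (E.Kl : ℝ) / sR ≤ evE P.D.K s ∧ evE P.D.K s ≤ (E.Ku : ℝ) / sR ∧ 0 ≤ (E.Ku : ℝ) / sR ∧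
      0 ≤ (E.S1 : ℝ) / sR ∧ 0 ≤ (E.S2 : ℝ) / sR ∧ P.pot.gz ≤ (E.G1 : ℝ) / sR ∧
      (E.S1 : ℝ) / sR ≤ (P.D.p : ℝ) * P.pot.gz * ((E.xe : ℝ) / sR) ∧
      P.pot.gz - (E.cT : ℝ) / sR * ((E.Kl : ℝ) / sR) ≤ (E.G2 : ℝ) / sR ∧
      (E.S2 : ℝ) / sR ≤ (P.D.p : ℝ) * P.pot.gz * ((E.xe : ℝ) / sR) -
        ((E.cT : ℝ) / sR * (((P.D.p : ℝ) + 1) * ((E.Ku : ℝ) / sR)) +
          (E.cT : ℝ) / sR * ((E.cT : ℝ) / sR) * ((E.cT : ℝ) / sR) *
            ((E.Kd : ℝ) / sR + (E.cB : ℝ) + endRest E P)) := by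
  simp only [EndD.highOk, Bool.and_eq_true, decide_eq_true_eq] at h
  obtain ⟨⟨⟨⟨⟨⟨⟨⟨⟨n1, n2⟩, n3⟩, n4⟩, n5⟩, -⟩, n6⟩, n7⟩, n8⟩, n9⟩ := h
  have h2 : sR * s ≤ ((scl : ℤ) : ℝ) := by
    simp only [scl, sR]
    push_cast
    linarith
  have m1 := nonneg1_sound n1 h1 h2
  have m2 := nonneg1_sound n2 h1 h2
  have m7 := nonneg1_sound n7 (x := 0) (by simp) (by simp)
  have m8 := nonneg1_sound n8 (x := 0) (by simp) (by simp)
  have m9 := nonneg1_sound n9 (x := 0) (by simp) (by simp)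
  have egp : ((P.D.G0 + P.E0 : ℤ) : ℝ) / sR = P.pot.gz := rfl
  simp only [EndD.restX, Expr.eval, eval_cE, eval_evX, egp] at m1 m2 m7 m8 m9
  push_cast at m7 m8 m9
  refine ⟨by linarith, by linarith, div_nonneg (Int.cast_nonneg n3) (by norm_num),
    div_nonneg (Int.cast_nonneg n4) (by norm_num), div_nonneg (Int.cast_nonneg n5) (by norm_num),
    ?_, by linarith, by linarith, ?_⟩
  · rw [← egp]
    exact div_le_div_of_nonneg_right (Int.cast_le.2 n6) (by norm_num)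
  · simp only [endRest, Par.nu, Par.g]
    linarith

/-- The numerical facts of the end. -/
structure EndN (E : EndD) (P : ParT) (k : CstT) (l1 : ℤ) : Prop where
  g1 : 1 ≤ P.D.g
  xe0 : 0 < (E.xe : ℝ) / sR
  cT0 : 0 ≤ (E.cT : ℝ) / sR
  cT : 1 ≤ ((E.xe : ℝ) / sR) ^ 2 + ((E.cT : ℝ) / sR) ^ 2
  s1 : ((P.D.p : ℝ) + 2) ≤ ((P.D.p : ℝ) + 3) * ((E.xe : ℝ) / sR)
  wM0 : 0 ≤ (E.wM : ℝ) / sR
  wM : ((P.D.p : ℝ) + 3) ≤ ((E.wM : ℝ) / sR) ^ (P.D.p + 1) * (1 + (E.xe : ℝ) / sR)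
  wMU : ((E.wM : ℝ) / sR) ^ (P.D.p + 1) ≤ (E.U : ℝ) + 1
  U1 : 1 ≤ (E.U : ℝ)
  wh : ((E.wh : ℝ) / sR) ^ (P.D.p + 1) ≤ 1 / 2
  k1 : 0 ≤ (k.k.eVal.c1 : ℝ) / sR
  eMax : 1 + (k.k.eVal.c1 : ℝ) / sR * ((l1 : ℝ) / sR) ≤ (E.eMax : ℝ) / sR
  eMax2 : (E.eMax : ℝ) / sR ≤ 2
  k18 : (k.k.eVal.c1 : ℝ) / sR * ((l1 : ℝ) / sR) ≤ ((P.D.p : ℝ) + 3) * ((E.xe : ℝ) / sR)
  G0 : 0 ≤ P.D.gz
  gp : 0 ≤ P.pot.gz
  GG : P.D.gz ≤ (E.Gp : ℝ) / sR
  Gp : P.pot.gz + (E.cT : ℝ) / sR * ((E.Kb : ℝ) / sR) ≤ (E.Gp : ℝ) / sR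
  Gm : (E.Gm : ℝ) / sR ≤ P.pot.gz - (E.cT : ℝ) / sR * ((E.Kb : ℝ) / sR)
  SP0 : 0 ≤ (E.SP : ℝ) / sR
  Wl0 : 0 ≤ (E.Wl : ℝ) / sR
  Wl : (E.Wl : ℝ) / sR ≤
    (P.D.p : ℝ) * ((P.D.bl : ℝ) / sR) - 3 * (P.D.p : ℝ) / 2 * ((E.cT : ℝ) / sR)
  SP : (E.SP : ℝ) / sR ≤ (P.D.p : ℝ) * P.pot.gz * ((E.xe : ℝ) / sR) - endErr E P
  SM : (P.D.p : ℝ) * P.pot.gz + endErr E P ≤ (E.SM : ℝ) / sR
  neg : 0 ≤ ((P.D.p : ℝ) + 3) * ((E.xe : ℝ) / sR) *
      ((E.Wl : ℝ) / sR * ((E.eMax : ℝ) / sR) -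
        (E.Gp : ℝ) / sR * ((k.k.eVal.c1 : ℝ) / sR) * ((E.eMax : ℝ) / sR) +
        P.D.gz * ((k.k.eVal.c1 : ℝ) / sR)) -
    (E.SM : ℝ) / sR * ((k.k.eVal.c1 : ℝ) / sR) * ((E.eMax : ℝ) / sR)

theorem endN_of_ok (hn : E.numOk P k l1 = true) (hg : nonneg1 (E.negX P k) 0 0 = true) :
    EndN E P k l1 := by
  simp only [EndD.numOk, Bool.and_eq_true, decide_eq_true_eq] at hn
  obtain ⟨⟨⟨⟨⟨⟨⟨⟨⟨⟨⟨⟨⟨⟨⟨⟨⟨⟨⟨⟨⟨⟨⟨⟨⟨⟨⟨⟨n1, n2⟩, n3⟩, n4⟩, n5⟩, n6⟩, n7⟩, n8⟩, n9⟩, n10⟩,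
    n11⟩, n12⟩, n13⟩, n13b⟩, n14⟩, n15⟩, n16⟩, n17⟩, n18⟩, n19⟩, n20⟩, n21⟩, n22⟩, n23⟩, n24⟩,
    n25⟩, n26⟩, n27⟩, n28⟩ := hn
  have S : (0 : ℝ) < sR := by norm_num
  have m24 := nonneg1_sound n24 (x := 0) (by simp) (by simp)
  have m25 := nonneg1_sound n25 (x := 0) (by simp) (by simp)
  have m26 := nonneg1_sound n26 (x := 0) (by simp) (by simp)
  have m27 := nonneg1_sound n27 (x := 0) (by simp) (by simp)
  have m28 := nonneg1_sound n28 (x := 0) (by simp) (by simp)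
  have m29 := nonneg1_sound hg (x := 0) (by simp) (by simp)
  have egp : ((P.D.G0 + P.E0 : ℤ) : ℝ) / sR = P.pot.gz := rfl
  simp only [EndD.negX, Expr.eval, eval_cE, errX_eval, egp] at m24 m25 m26 m27 m28 m29
  push_cast at m26 m27 m28 m29
  have hG0 : 0 ≤ P.D.gz := div_nonneg (Int.cast_nonneg n21) S.le
  have hE0 : 0 ≤ P.ez := div_nonneg (Int.cast_nonneg n22) S.le
  have hwM : 0 ≤ E.wM := le_trans (by norm_num [scl]) n7
  constructor
  · rw [Par.g, le_div_iff₀ (by norm_num), one_mul]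
    exact_mod_cast n5
  · exact div_pos (Int.cast_pos.2 n1) S
  · exact div_nonneg (Int.cast_nonneg n3) S.le
  · have h4 := (Int.cast_le (R := ℝ)).2 n4
    push_cast [scl] at h4
    rw [div_pow, div_pow, ← add_div, le_div_iff₀ (pow_pos S 2)]
    simp only [sR]
    linarith
  · have h6 := (Int.cast_le (R := ℝ)).2 n6
    push_cast [scl] at h6
    rw [← mul_div_assoc, le_div_iff₀ S]
    simp only [sR]
    linarith
  · exact div_nonneg (Int.cast_nonneg hwM) S.le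
  · have h11 := (Int.cast_le (R := ℝ)).2 n11
    push_cast [scl] at h11
    rw [div_pow, show (1 : ℝ) + (E.xe : ℝ) / sR = ((16777216 : ℝ) + E.xe) / sR by
      simp only [sR]; ring, div_mul_div_comm, le_div_iff₀ (by positivity)]
    simp only [sR]
    linarith
  · have h12 := (Int.cast_le (R := ℝ)).2 n12
    push_cast [scl] at h12
    rw [div_pow, div_le_iff₀ (pow_pos S _)]
    exact h12
  · exact_mod_cast n13
  · have h10 := (Int.cast_le (R := ℝ)).2 n10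
    push_cast [scl] at h10
    rw [div_pow, div_le_iff₀ (pow_pos S _)]
    simp only [sR]
    linarith
  · exact div_nonneg (Int.cast_nonneg n16) S.le
  · have h17 := (Int.cast_le (R := ℝ)).2 n17
    rw [n14] at h17
    push_cast [scl] at h17
    rw [le_div_iff₀ S]
    simp only [sR]
    linarith
  · have h13 := (Int.cast_le (R := ℝ)).2 n13b
    push_cast [scl] at h13
    rw [div_le_iff₀ S]
    simp only [sR]
    linarith
  · have h18 := (Int.cast_le (R := ℝ)).2 n18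
    push_cast [scl] at h18
    rw [div_mul_div_comm, ← mul_div_assoc, div_le_div_iff₀ (mul_pos S S) S]
    simp only [sR]
    linarith
  · exact hG0
  · rw [P.pot_gz]; linarith
  · exact div_le_div_of_nonneg_right (by exact_mod_cast (by linarith : P.D.G0 ≤ E.Gp)) S.le
  · linarith
  · linarith
  · exact div_nonneg (Int.cast_nonneg n20) S.le
  · exact div_nonneg (Int.cast_nonneg n19) S.le
  · linarith
  · linarith
  · linarith
  · rw [Par.gz]; linarith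

/-- The bounds of a state at the end. -/
structure EndS (E : EndD) (P : ParT) (k : CstT) (ell s r w x : ℝ) : Prop where
  hx1 : |x| ≤ 1
  hneg : -x * (((P.D.p : ℝ) + 3) * ((E.xe : ℝ) / sR)) ≤ (k.k.eVal.c1 : ℝ) / sR * ell
  hvge : 1 / (1 + s) - x ≤ 1 / r
  hone : 1 / 2 ≤ 1 / (1 + s)
  hvA : x ≤ 0 → 1 / r ≤ 1 + (k.k.eVal.c1 : ℝ) / sR * ell
  hwM : 0 ≤ x → w ≤ (E.wM : ℝ) / sR
  hu : |1 / r - 1| ≤ (E.U : ℝ)
  hs1 : ((P.D.p : ℝ) + 2) ≤ ((P.D.p : ℝ) + 3) * s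
  cT : arc s ≤ (E.cT : ℝ) / sR

theorem endS_of_state (N : EndN E P k l1) {ell s t a r q w x : ℝ}
    (h : FlatState P.D.p ell s t a r q) (h0 : 0 ≤ ell) (hl : ell ≤ (l1 : ℝ) / sR)
    (hexp : Real.exp ell ≤ 1 + (k.k.eVal.c1 : ℝ) / sR * ell)
    (hxs : (E.xe : ℝ) / sR ≤ s) (hx : t - s = arc s ^ 2 * x) (hw : 0 < w)
    (hwv : w ^ (P.D.p + 1) = 1 / r) : EndS E P k ell s r w x := by
  have hs := h.state.s_mem
  have hz : 0 < 1 - s ^ 2 := one_sub_sq_pos hs.1.le hs.2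
  have hc2 : arc s ^ 2 = 1 - s ^ 2 := Real.sq_sqrt hz.le
  have hp3 : (0 : ℝ) ≤ (P.D.p : ℝ) + 3 := by positivity
  have hs1 : ((P.D.p : ℝ) + 2) ≤ ((P.D.p : ℝ) + 3) * s :=
    N.s1.trans (mul_le_mul_of_nonneg_left hxs hp3)
  have hneg := neg_x_le h hx h0 N.k1 hexp N.xe0 hxs
  have hk := mul_le_mul_of_nonneg_left hl N.k1
  have hvA : x ≤ 0 → 1 / r ≤ 1 + (k.k.eVal.c1 : ℝ) / sR * ell := fun c => by
    refine (inv_rate_le_diag h ?_).trans hexp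
    have := mul_nonpos_of_nonneg_of_nonpos (sq_nonneg (arc s)) c
    linarith
  have hwM : 0 ≤ x → w ≤ (E.wM : ℝ) / sR := fun c => by
    refine le_of_pow_le_pow_left₀ (Nat.succ_ne_zero P.D.p) N.wM0 ?_
    rw [Nat.succ_eq_add_one, hwv]
    refine le_of_mul_le_mul_right ((v_le h hx c).trans (N.wM.trans ?_)) (by linarith [hs.1])
    exact mul_le_mul_of_nonneg_left (by linarith) (pow_nonneg N.wM0 _)
  refine ⟨abs_le.2 ⟨?_, ?_⟩, hneg, v_ge h hx hs1,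
    one_div_le_one_div_of_le (by linarith [hs.1]) (by linarith [hs.2]), hvA, hwM,
    abs_le.2 ⟨?_, ?_⟩, hs1, ?_⟩
  · have hq : 0 < ((P.D.p : ℝ) + 3) * ((E.xe : ℝ) / sR) := mul_pos (by positivity) N.xe0
    have := le_of_mul_le_mul_right
      ((hneg.trans (hk.trans N.k18)).trans (le_of_eq (one_mul _).symm)) hq
    linarith
  · refine (x_le_inv h hx).trans ?_
    rw [div_le_one (by linarith [hs.1])]
    linarith [hs.1]
  · linarith [N.U1, one_div_pos.2 h.state.rate_pos]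
  · rcases le_total x 0 with c | c
    · linarith [hvA c, N.eMax, N.eMax2, N.U1]
    · have h13 := pow_le_pow_left₀ hw.le (hwM c) (P.D.p + 1)
      rw [hwv] at h13
      linarith [N.wMU]
  · refine le_of_pow_le_pow_left₀ two_ne_zero N.cT0 ?_
    rw [hc2]
    linarith [N.cT, pow_le_pow_left₀ N.xe0.le hxs 2]

/-- The cell is nonnegative near the end. -/
theorem end_cell (hok : E.ok P k l0 l1 = true) {ell s t a r q : ℝ}
    (h : FlatState P.D.p ell s t a r q) (hl0 : (l0 : ℝ) ≤ sR * ell) (hl1 : sR * ell ≤ l1)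
    (hse : (E.xe : ℝ) ≤ sR * s) : 0 ≤ P.cell ell s t a r := by
  simp only [EndD.ok, Bool.and_eq_true] at hok
  obtain ⟨⟨⟨⟨⟨⟨⟨⟨⟨hcst, hbr⟩, hpot⟩, hnum⟩, hneg⟩, hlow⟩, hmid⟩, hcov⟩, hps⟩, hhigh⟩ := hok
  have hD := bracketOk_sound (D := P.pot) hbr
  have N := endN_of_ok hnum hneg
  simp only [cstTOk, cstOk, Bool.and_eq_true, decide_eq_true_eq] at hcst
  obtain ⟨⟨⟨⟨⟨⟨⟨⟨hm, -⟩, -⟩, -⟩, xC⟩, xV⟩, -⟩, -⟩, -⟩ := hcst
  simp only [EndD.numOk, Bool.and_eq_true, decide_eq_true_eq] at hnum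
  obtain ⟨⟨⟨⟨⟨⟨⟨⟨⟨⟨⟨⟨⟨⟨⟨-, e14⟩, e15⟩, -⟩, -⟩, -⟩, -⟩, -⟩, -⟩, -⟩, -⟩, -⟩, -⟩, -⟩, -⟩, -⟩ := hnum
  have S : (0 : ℝ) < sR := by norm_num
  have hs := h.state.s_mem
  have hc := h.state.arc_pos'
  have hell : 0 ≤ ell := by
    simp only [expOk, Bool.and_eq_true, decide_eq_true_eq] at xV
    have : (0 : ℝ) ≤ l0 := by exact_mod_cast xV.1.1.1
    norm_num [sR] at hl0
    linarith
  have hexp : Real.exp ell ≤ 1 + (k.k.eVal.c1 : ℝ) / sR * ell := by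
    have h1 := expOk_sound xV hl0 hl1
    simp only [L2.ev, e14, scl, Nat.cast_one, one_div_one, one_mul] at h1
    refine h1.trans (le_of_eq ?_)
    simp only [sR]
    push_cast
    ring
  have hexp2 : Real.exp (2 / ((P.D.p : ℝ) + 1) * ell) ≤ 1 + (k.k.eCut.c1 : ℝ) / sR * ell := by
    have h1 := expOk_sound xC hl0 hl1
    rw [hm] at h1
    simp only [L2.ev, e15, scl, show P.pot.p = P.D.p from rfl] at h1
    push_cast at h1
    refine h1.trans (le_of_eq ?_)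
    simp only [sR]
    ring
  have hlL : ell ≤ (l1 : ℝ) / sR := by rw [le_div_iff₀ S]; linarith
  have hxs : (E.xe : ℝ) / sR ≤ s := by rw [div_le_iff₀ S]; linarith
  set w := arc s / a with hwd
  have hw : 0 < w := div_pos hc h.state.pos
  have hwv : w ^ (P.D.p + 1) = 1 / r := Grid.root_rate (D := P.pot) h
  set x := (t - s) / arc s ^ 2 with hxd
  have hx : t - s = arc s ^ 2 * x := by rw [hxd]; field_simp
  have X := endS_of_state N h hell hlL hexp hxs hx hw hwv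
  obtain ⟨bK, bdK, bb, bdb, bc0⟩ := potOk_sound hpot hD hse hs.2.le
  have hT := high_terms (g := P.D.g) (nu := P.D.nu)
    (N := P.D.nu * ((P.D.p : ℝ) + 4) * P.D.g ^ 2) (m := (P.D.p : ℝ) + 1) hc X.cT hs.1 hs.2.le
    (one_div_pos.2 h.state.rate_pos) rfl X.hu N.U1 (by positivity)
    (by rw [Par.nu]; positivity) (by rw [Par.nu]; positivity) N.g1 bb bdb X.hx1 hx
    (fun _ c => by linarith [X.hvge, X.hone])
  have hR : 0 ≤ endRest E P := by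
    have f0 : 0 ≤ (E.F0 : ℝ) / sR := nonneg_of_mul_nonneg_left ((abs_nonneg _).trans bb) hs.1
    have f1 : 0 ≤ (E.F1 : ℝ) / sR :=
      nonneg_of_mul_nonneg_left ((abs_nonneg _).trans bdb) (pow_pos hs.1 2)
    rw [endRest, Par.nu]
    have := N.cT0
    positivity
  have hSP := N.SP
  have hSM := N.SM
  rw [endErr] at hSP hSM
  obtain ⟨hxP, hxM⟩ := x_part (p := (P.D.p : ℝ)) (R := endRest E P) (SP := (E.SP : ℝ) / sR)
    (SM := (E.SM : ℝ) / sR) hc X.cT hxs hs.1.le hs.2.le (Nat.cast_nonneg _) N.gp hR bK bdK bc0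
    hT hSP hSM
  have hKb : 0 ≤ (E.Kb : ℝ) / sR := (abs_nonneg _).trans bK
  have hSM0 : 0 ≤ (E.SM : ℝ) / sR := by
    have : 0 ≤ (P.D.p : ℝ) * P.pot.gz := mul_nonneg (Nat.cast_nonneg _) N.gp
    have := (abs_nonneg _).trans bdK
    have := N.cT0
    refine le_trans ?_ hSM
    positivity
  have hW : (E.Wl : ℝ) / sR * ell ≤ arc s * (ell * wS P.D.p (arc s)) := by
    have h1 := value_part (Nat.cast_nonneg (α := ℝ) P.D.p) hc X.cT (Ident.b0_pos P.D.p) hD.2.1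
    have h2 := mul_le_mul_of_nonneg_right (N.Wl.trans h1) hell
    refine h2.trans (le_of_eq ?_)
    rw [wS, sqCoef]
    ring
  have hkap : (0 ≤ 1 / r - 1 → -((E.Gp : ℝ) / sR) * (1 / r - 1) ≤
      (arc s * evE P.D.K s - P.pot.gz) * (1 / r - 1)) ∧ (1 / r - 1 ≤ 0 →
      -((E.Gm : ℝ) / sR) * (1 / r - 1) ≤
      (arc s * evE P.D.K s - P.pot.gz) * (1 / r - 1)) := by
    have hb := abs_c_mul hc.le X.cT bK
    exact ⟨fun c => mul_le_mul_of_nonneg_right (by linarith [N.Gp, (abs_le.1 hb).1]) c,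
      fun c => mul_le_mul_of_nonpos_right (by linarith [N.Gm, (abs_le.1 hb).2]) c⟩
  have hneg0 := N.neg
  suffices hk : 0 ≤ arc s * P.cell ell s t a r from (mul_nonneg_iff_of_pos_left hc).1 hk
  rw [end_split h hx, ← hwd]
  rcases le_total 1 w with cw | cw
  · -- the ratio at least one
    have hu0 : 0 ≤ 1 / r - 1 := by
      rw [← hwv]; linarith [one_le_pow₀ (n := P.D.p + 1) cw]
    rcases le_total x 0 with cx | cx
    · have hbw : 1 / r - 1 ≤ ((P.D.p : ℝ) + 1) * (w - 1) * (1 / r / w) := by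
        have hb := root_ge hw (Nat.succ_pos P.D.p)
        simp only [Nat.succ_eq_add_one, Nat.add_sub_cancel, hwv] at hb
        push_cast at hb
        refine hb.trans (le_of_eq ?_)
        rw [← hwv, pow_succ]
        field_simp
      have e := below_high (u := 1 / r - 1) (Nat.cast_nonneg (α := ℝ) P.D.p) N.xe0
        (by linarith [N.eMax, mul_nonneg N.k1 (hell.trans hlL)]) hell N.G0 N.GG
        (by linarith [N.eMax, mul_nonneg N.k1 (hell.trans hlL)]) hSM0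
        (show 1 / r - 1 ≤ (k.k.eVal.c1 : ℝ) / sR * ell by linarith [X.hvA cx]) hu0 rfl
        (by linarith [X.hvA cx, mul_le_mul_of_nonneg_left hlL N.k1, N.eMax]) cw hbw
        (by positivity) X.hneg hneg0
      linarith [hxM cx, hkap.1 hu0]
    · obtain ⟨hKl, hKu, hKu0, hS1, hS2, hG1, hs1', hG2, hs2'⟩ := highOk_sound hhigh hse hs.2.le
      have hcut := x_ge_cut h hx cx hwd hexp2
      have htail := x_ge_tail h hx cx hw hwv X.hs1
      have e1 := above_ok (P := P) (E := E) hcov hps _ (.inl rfl) hw hwv cw (X.hwM cx) hell hlL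
        hS1 hcut htail
      have e2 := above_ok (P := P) (E := E) hcov hps _ (.inr rfl) hw hwv cw (X.hwM cx) hell hlL
        hS2 hcut htail
      have e := high_part hc X.cT hxs hs.1.le hs.2.le (Nat.cast_nonneg (α := ℝ) P.D.p) N.gp hR
        hKl hKu hKu0 bdK bc0 hu0 cx hT hG1 hs1' hG2 hs2'
        (Y := (E.Wl : ℝ) / sR * ell + P.D.gz * (((P.D.p : ℝ) + 1) * (w - 1))) e1 e2
      linarith
  · -- the ratio below one
    have hu0 : 1 / r - 1 ≤ 0 := by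
      rw [← hwv]; linarith [pow_le_one₀ (n := P.D.p + 1) hw.le cw]
    rcases le_total x 0 with cx | cx
    · have hB : 0 ≤ P.D.gz * (((P.D.p : ℝ) + 1) * (w - 1)) +
          (E.Gm : ℝ) / sR * (1 - 1 / r) := by
        refine mid_ok hmid hwv ?_ cw
        by_contra hn
        have h11 := pow_lt_pow_left₀ (not_le.1 hn) hw.le (Nat.succ_ne_zero P.D.p)
        rw [Nat.succ_eq_add_one, hwv] at h11
        linarith [N.wh, X.hvge, X.hone]
      have e := below_low (B := P.D.gz * (((P.D.p : ℝ) + 1) * (w - 1)) +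
          (E.Gm : ℝ) / sR * (1 - 1 / r)) (Nat.cast_nonneg (α := ℝ) P.D.p) N.xe0 hell N.k1 N.G0
        N.GG (by linarith [N.eMax, mul_nonneg N.k1 (hell.trans hlL)]) hSM0 hB X.hneg hneg0
      linarith [hxM cx, hkap.2 hu0]
    · rcases le_total ((E.wh : ℝ) / sR) w with c | c
      · linarith [mid_ok hmid hwv c cw, hxP cx, mul_nonneg N.SP0 cx, mul_nonneg N.Wl0 hell,
          hkap.2 hu0]
      · linarith [low_ok hlow hwv hw c, hxP cx, mul_nonneg N.Wl0 hell, hkap.2 hu0,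
          mul_le_mul_of_nonneg_left (show 1 / 2 - 1 / r ≤ x by linarith [X.hvge, X.hone]) N.SP0]

end Vale.Agent.P237.Petty.Cor.Grid.Tiny
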