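import Vale.Agent.P237.Petty.Cor.Grid.Tiny.Box
import Vale.Agent.P237.Petty.Cor.Grid.Tiny.EndCell

/-!
# P237: a cell that reaches down to the value zero, from its data
-/

namespace Vale.Agent.P237.Petty.Cor.Grid.Tiny

open MeasureTheory Set Grid
open Lift (circLow circHigh)

/-- The data of a cell that reaches down to zero. -/
structure CellT where
  /-- the parameters -/
  P : ParT
  /-- the constants -/
  k : CstT
  /-- the largest value -/
  l1 : ℤ
  /-- the data of the end -/
  E : EndD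
  /-- the part of the remainder along the value -/
  A : Hinges
  /-- the rows, each with a node for the bound of the displacement -/
  rows : List (RowT × ℕ)
  /-- the pieces -/
  pieces : List PieceT

namespace CellT

variable (C : CellT)

/-- The common part of the data. -/
def base : Cell :=
  ⟨C.P.pot, C.k.k, 0, C.l1, C.E.eMax, 0, 0, 0, 0, C.E.xe, C.A, ⟨0, []⟩, [], []⟩

/-- The context of a row. -/
def ctx (T : List Slab) (e : RowT) : CtxT := ⟨C.k, e.Q.R, C.pieces, Cell.gridOf T⟩

/-- The box of a row. -/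
def box (e : RowT) : Box := C.base.box e.potRow

/-- A subdivision of the box of a row passes. -/
def Covers (T : List Slab) (e : RowT) : Prop :=
  ∃ t : TreeT, (C.ctx T e).chk t (C.box e) = true

/-- The check of a row, without its subdivision. -/
def rowOk (T : List Slab) (e : RowT × ℕ) : Bool :=
  coefT C.P e.1 && C.P.pot.massOk T e.1.potRow && C.A.isOn e.1.Q.R.tA e.1.Q.s0 e.1.Q.s1 &&
    decide (e.1.Q.R.tB.c0 = 0) && decide (e.1.Q.R.tB.c1 = 0) &&
    C.base.dhOk T e.1.potRow e.2 && C.base.vmOk e.1.potRow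

/-- The check of the constants of a cell. -/
def headOk : Bool :=
  decide (1 ≤ C.P.D.p) && decide (0 < C.P.D.G0) && decide (0 ≤ C.P.E0) &&
    decide (0 ≤ C.k.k.eVal.c1) &&
    decide (C.k.k.eVal.c0 * scl + C.k.k.eVal.c1 * C.l1 ≤ C.E.eMax * scl) &&
    cstTOk C.P C.k 0 C.l1 && bracketOk C.P.D.p C.P.D.bl C.P.D.bu &&
    Cell.coverR 0 C.E.xe (C.rows.map fun e => (e.1.potRow, e.2)) &&
    C.E.ok C.P C.k 0 C.l1 &&
    (match affOn C.A.hs C.E.xe scl with
     | some a => decide (a.2 = 0) && decide (C.A.v0 + a.1 ≤ 0)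
     | none => false)

/-- The check of the mean of a cell. -/
def meanOk (T : List Slab) : Bool :=
  match C.A.low (C.P.D.p + 1) T with
  | some a => decide (0 ≤ a)
  | none => false

variable {C} {T : List Slab}

/-- The sign in a row. -/
theorem row_pos (hh : C.headOk = true) (hT : tableOk (C.P.D.p + 1) T = true)
    (hp : C.pieces.all (pieceTOk C.k.k.m) = true) {e : RowT × ℕ} (he : C.rowOk T e = true)
    (hc : C.Covers T e.1) {ell : ℝ} (hl0 : 0 ≤ ell) (hl1 : sR * ell ≤ C.l1)
    {s t a r q : ℝ} (h : FlatState C.P.D.p ell s t a r q)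
    (h1 : (e.1.Q.s0 : ℝ) ≤ sR * s) (h2 : sR * s ≤ e.1.Q.s1) :
    ell * C.A.ev s ≤ C.P.cell ell s t a r := by
  simp only [headOk, Bool.and_eq_true, decide_eq_true_eq] at hh
  obtain ⟨⟨⟨⟨⟨⟨⟨⟨⟨-, hG⟩, hE⟩, hk1⟩, hk2⟩, hcst⟩, hbr⟩, -⟩, -⟩, -⟩ := hh
  simp only [rowOk, Bool.and_eq_true, decide_eq_true_eq] at he
  obtain ⟨⟨⟨⟨⟨⟨hco, hma⟩, hA⟩, hb0⟩, hb1⟩, hdh⟩, hvm⟩ := he
  have S : (0 : ℝ) < sR := by norm_num
  have hs := h.state.s_mem
  have hR : RowAtT C.P e.1 s :=
    rowAtT (bracketOk_sound (D := C.P.pot) hbr) (tableOk_sound hT) hco hma h1 h2 hs.1 hs.2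
  have hG' : 0 ≤ C.P.D.gz := div_nonneg (Int.cast_nonneg hG.le) S.le
  have hE' : 0 ≤ C.P.ez := div_nonneg (Int.cast_nonneg hE) S.le
  have hz : ((0 : ℤ) : ℝ) ≤ sR * ell := by push_cast; positivity
  have F := factsT_of_state hcst h hR hG' hE' hz hl1
  have hcst' := hcst
  simp only [cstTOk, Bool.and_eq_true] at hcst'
  simp only [coefT, Bool.and_eq_true] at hco
  have hbox := box_mem (C := C.base) hT hcst'.1.1 hk1 hk2 hco.1.1.1.1.1 hdh hvm
    (show 0 ≤ C.P.pot.gz by rw [C.P.pot_gz]; linarith) h hR.pot hz hl1 h1 h2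
  obtain ⟨t', ht'⟩ := hc
  have hpos : 0 ≤ (1 / r) *
      (C.P.cell ell s t a r - (ell * e.1.Q.R.tA.ev s - e.1.Q.R.tB.ev s)) := by
    refine chk_sound (K := C.ctx T e.1) (fun P hP => ?_) (concaveOn_circLow C.P.D.p)
      (Cell.gridBelow (C := C.base) hT) t' _ ht' hbox F
    exact pieceTOk_sound (List.all_eq_true.1 hp P hP)
  have hv : 0 < 1 / r := one_div_pos.2 h.state.rate_pos
  have h3 := (mul_nonneg_iff_of_pos_left hv).1 hpos
  rw [C.A.isOn_sound hA h1 h2]
  have : e.1.Q.R.tB.ev s = 0 := by simp [L2.ev, hb0, hb1]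
  linarith

/-- The sign on the whole range. -/
theorem pos_all (hh : C.headOk = true) (hT : tableOk (C.P.D.p + 1) T = true)
    (hp : C.pieces.all (pieceTOk C.k.k.m) = true) (hr : C.rows.all (C.rowOk T) = true)
    (hc : ∀ e ∈ C.rows, C.Covers T e.1) {ell : ℝ} (hl0 : 0 ≤ ell) (hl1 : sR * ell ≤ C.l1)
    {s t a r q : ℝ} (h : FlatState C.P.D.p ell s t a r q) :
    ell * C.A.ev s ≤ C.P.cell ell s t a r := by
  have hh' := hh
  simp only [headOk, Bool.and_eq_true, decide_eq_true_eq] at hh'
  obtain ⟨⟨⟨-, hcov⟩, hend⟩, haff⟩ := hh'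
  have hs := h.state.s_mem
  have S : (0 : ℝ) < sR := by norm_num
  rcases le_total (sR * s) C.E.xe with c | c
  · obtain ⟨e', he', m1, m2⟩ := Cell.coverR_mem _ 0 C.E.xe hcov s
      (by push_cast; exact mul_nonneg S.le hs.1.le) c
    obtain ⟨e, he, rfl⟩ := List.mem_map.1 he'
    exact row_pos hh hT hp (List.all_eq_true.1 hr e he) (hc e he) hl0 hl1 h m1 m2
  · have hsS : sR * s ≤ ((scl : ℤ) : ℝ) := by
      simp only [scl, sR]
      push_cast
      linarith [hs.2]
    have h0 := end_cell hend h (l0 := 0) (by push_cast; positivity) hl1 c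
    split at haff
    next a' hA =>
      simp only [Bool.and_eq_true, decide_eq_true_eq] at haff
      have eA : C.A.ev s ≤ 0 := by
        rw [Hinges.ev, affOn_sound _ _ _ _ hA s c hsS, haff.1, Int.cast_zero, zero_mul, add_zero,
          ← add_div]
        exact div_nonpos_of_nonpos_of_nonneg (by exact_mod_cast haff.2) S.le
      exact (mul_nonpos_of_nonneg_of_nonpos hl0 eA).trans h0
    next => simp at haff

/-- The data give the cell. -/
theorem corCell (hh : C.headOk = true) (hT : tableOk (C.P.D.p + 1) T = true)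
    (hp : C.pieces.all (pieceTOk C.k.k.m) = true) (hr : C.rows.all (C.rowOk T) = true)
    (hm : C.meanOk T = true) (hc : ∀ e ∈ C.rows, C.Covers T e.1) :
    CorCell C.P.D.p 0 ((C.l1 : ℝ) / sR) := by
  have hh' := hh
  simp only [headOk, Bool.and_eq_true, decide_eq_true_eq] at hh'
  obtain ⟨⟨⟨⟨⟨⟨⟨⟨⟨hp1, hG⟩, -⟩, -⟩, -⟩, -⟩, -⟩, -⟩, -⟩, -⟩ := hh'
  have S : (0 : ℝ) < sR := by norm_num
  simp only [meanOk] at hm
  split at hm
  next na hna =>
    simp only [decide_eq_true_eq] at hm
    have iA := C.A.low_sound hT hna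
    set p := C.P.D.p
    have hc0 : Continuous fun s => arc s ^ (p + 1) := continuous_arc.pow _
    have hcA : Continuous fun s => arc s ^ (p + 1) * C.A.ev s := hc0.mul C.A.continuous
    have hgam : 0 < C.P.D.gam := by
      have := Ident.b0_pos C.P.D.p
      have : 0 < C.P.D.gz := div_pos (Int.cast_pos.2 hG) S
      unfold Par.gam
      positivity
    have e : ∀ s, arc s ^ (p + 1) * (wS p (arc s) - C.A.ev s) =
        arc s ^ (p + 1) * wS p (arc s) - arc s ^ (p + 1) * C.A.ev s := fun s => by ring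
    have hI : 0 ≤ ∫ s in (0 : ℝ)..1, arc s ^ (p + 1) * C.A.ev s :=
      nonneg_of_mul_nonneg_right ((Int.cast_nonneg hm).trans iA) (by positivity)
    refine corCell_of_bridge (gam := C.P.D.gam) (nu := C.P.D.nu) (g := C.P.D.g) hp1 hgam
      (by unfold Par.nu; positivity)
      (k := C.P.pot.kF) (k' := C.P.pot.kF') (β := C.P.pot.bF) (β' := C.P.pot.bF')
      (B := fun s => arc s ^ (p + 1) * C.P.pot.sb s)
      (M := fun s => wS p (arc s) - C.A.ev s) (R := fun _ => 0)
      (fun s hs => C.P.pot.hasDerivAt_kF ⟨by linarith [hs.1], hs.2⟩)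
      (fun s hs => C.P.pot.hasDerivAt_bF hs.1.ne') ?_ ?_ ?_ ?_ ?_ ?_ ?_ ?_
    · have e2 : (fun s => arc s ^ (p + 1) * C.P.pot.kF s) =
          fun s => arc s ^ (p + 1) * evE C.P.D.K s - C.P.pot.gz * arc s ^ p := by
        funext s
        rcases eq_or_ne (arc s) 0 with h0 | h0
        · simp [Par.kF, h0, zero_pow (show p ≠ 0 by omega)]
        · rw [Par.kF, pow_succ]
          field_simp
          rfl
      rw [e2]
      exact ((hc0.mul (continuous_evE _)).sub
        (continuous_const.mul (continuous_arc.pow _))).continuousOn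
    · exact (hc0.mul (continuous_iff_continuousAt.2 fun s =>
        (C.P.pot.hasDerivAt_sb s).continuousAt)).continuousOn
    · intro s hs
      rw [Par.bF]
      have := hs.1.ne'
      field_simp
    · simp only [e]
      exact ((continuous_arc_pow_wS _).sub hcA).continuousOn
    · exact (hc0.mul continuous_const).continuousOn
    · simp only [e]
      rw [intervalIntegral.integral_sub ((continuous_arc_pow_wS _).intervalIntegrable _ _)
        (hcA.intervalIntegrable _ _), integral_wS hp1]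
      linarith
    · simp
    · intro ell hl s t a r q h
      have hl1 : sR * ell ≤ C.l1 := by rw [← le_div_iff₀' S]; exact hl.2
      have := pos_all hh hT hp hr hc hl.1 hl1 h
      rw [ParT.cell] at this
      simp only [sub_sub_cancel, sub_zero]
      linarith
  next => simp at hm

end CellT

end Vale.Agent.P237.Petty.Cor.Grid.Tiny
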