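import Vale.Agent.P237.Petty.Cor.Grid.Tiny.Rows
import Vale.Agent.P237.Petty.Cor.Tiny.Facts

/-!
# P237: the facts of a leaf of a tiny cell on a state
-/

namespace Vale.Agent.P237.Petty.Cor.Grid.Tiny

open MeasureTheory Set Grid
open Lift (circLow circHigh)

/-- The check of the constants. -/
def cstTOk (P : ParT) (k : CstT) (l0 l1 : ℤ) : Bool :=
  cstOk P.pot k.k l0 l1 && decide (0 ≤ k.k.eRoot.c1) &&
    decide (k.k.eRoot.c0 * scl + k.k.eRoot.c1 * l1 ≤ (k.hR : ℤ) * scl)

variable {P : ParT}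

/-- At the diagonal the cut bounds the reciprocal of the rate by the exponential of the value. -/
theorem inv_rate_le_diag {p : ℕ} {ell s t a r q : ℝ} (h : FlatState p ell s t a r q)
    (ht : t ≤ s) : 1 / r ≤ Real.exp ell := by
  have hs := h.state.s_mem
  have hc := pow_pos h.state.arc_pos' (p + 1)
  have h1 : arc s ^ (p + 1) ≤ arc t ^ (p + 1) := by
    refine pow_le_pow_left₀ (Real.sqrt_nonneg _) (Real.sqrt_le_sqrt ?_) _
    nlinarith [h.state.t_mem.1]
  have h2 := h1.trans h.cut_rate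
  rw [div_le_iff₀ h.state.rate_pos]
  refine le_of_mul_le_mul_right ?_ hc
  linarith

/-- The rows, the constants and a state give the facts of the leaves. -/
theorem factsT_of_state {k : CstT} {l0 l1 : ℤ} (hc : cstTOk P k l0 l1 = true) {e : RowT}
    {ell s t a r q : ℝ} (h : FlatState P.D.p ell s t a r q) (hR : RowAtT P e s)
    (hG : 0 ≤ P.D.gz) (hE : 0 ≤ P.ez) (hl0 : (l0 : ℝ) ≤ sR * ell) (hl1 : sR * ell ≤ l1) :
    FactsT k e.Q.R (circLow P.D.p) ⟨s, (t - s) / s, 1 / r, ell⟩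
      ((1 / r) * (P.cell ell s t a r - (ell * e.Q.R.tA.ev s - e.Q.R.tB.ev s))) := by
  simp only [cstTOk, Bool.and_eq_true, decide_eq_true_eq] at hc
  obtain ⟨⟨hc0, hr1⟩, hr2⟩ := hc
  have hG1 : 0 ≤ P.pot.gz := by rw [P.pot_gz]; linarith
  have F := facts_of_state hc0 h hR.pot hG1 hl0 hl1
  have hcst := hc0
  simp only [cstOk, Bool.and_eq_true, decide_eq_true_eq] at hcst
  obtain ⟨⟨⟨⟨⟨⟨hm, hC⟩, hDk⟩, hM⟩, xC⟩, xV⟩, xR⟩ := hcst
  have hs := h.state.s_mem
  have hs0 := hs.1.ne'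
  have hr := h.state.rate_pos
  have hv : 0 < 1 / r := one_div_pos.2 hr
  have hca := h.state.arc_pos'
  have hcp := pow_pos hca (P.D.p + 1)
  have hz : 0 < 1 - s ^ 2 := one_sub_sq_pos hs.1.le hs.2
  have hc2 : arc s ^ 2 = 1 - s ^ 2 := Real.sq_sqrt hz.le
  have hm' : (k.k.m : ℝ) = (P.D.p : ℝ) + 1 := by rw [hm]; push_cast; rfl
  have hell : 0 ≤ ell := by
    simp only [expOk, Bool.and_eq_true, decide_eq_true_eq] at xV
    have : (0 : ℝ) ≤ l0 := by exact_mod_cast xV.1.1.1
    norm_num [sR] at hl0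
    linarith
  have hC0 : 0 ≤ circLow P.D.p s :=
    intervalIntegral.integral_nonneg hs.1.le fun v _ => pow_nonneg (Real.sqrt_nonneg _) _
  have hloU : circLow P.D.p s ≤ e.Q.R.loU.ev s * arc s ^ (P.D.p + 1) := hR.pot.loU
  have hL0 : 0 ≤ e.Q.R.loU.ev s := nonneg_of_mul_nonneg_left (hC0.trans hloU) hcp
  have hdd : s * ((t - s) / s) = t - s := by field_simp
  refine ⟨⟨hv, F.cut, F.rect, F.high, F.sq, F.low, F.disp, F.haz, F.pin, F.geo,
    fun σ Q hσ hsh => ?_⟩, ?_, fun Q hQ hd => ?_⟩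
  · set δ := (t - s) / s with hδ
    set v := 1 / r with hvd
    have ha := h.state.pos
    have hw := hsh (arc s / a) (div_nonneg hca.le ha.le)
      (by rw [hm]; exact Grid.root_rate (D := P.pot) h)
    rw [hm'] at hw
    have hpn : P.pot.nu = P.D.nu := rfl
    have hpg : P.pot.g = P.D.g := rfl
    have hpp : P.pot.p = P.D.p := rfl
    have kC : (k.k.kC : ℝ) / sR = 2 * P.D.nu * (1 + P.D.g) := by
      rw [hC]; simp only [ParT.pot, Par.nu, Par.g]; push_cast [sR]; ring
    have kD : (k.k.kD : ℝ) / sR = 2 * P.D.nu * P.D.g * (1 + P.D.g) := by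
      rw [hDk]; simp only [ParT.pot, Par.nu, Par.g]; push_cast [sR]; ring
    have kM : (k.k.kM : ℝ) / sR = 2 * P.D.nu * (P.D.g ^ 2 - 1) := by
      rw [hM]; simp only [ParT.pot, Par.nu, Par.g]; push_cast [sR]; ring
    have hX : v * P.cell ell s t a r = ell * v * wS P.D.p (arc s) +
        v * ((evE P.D.K s - P.ez / arc s) * (v - 1)) +
        P.D.gz / arc s * ((((P.D.p : ℝ) + 1) * (arc s / a - 1)) - (v - 1)) * v +
        s * (P.pot.kF' s - potRate P.D.p s * P.pot.kF s - P.pot.c0 * s) * δ * v +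
        s ^ 2 * (P.pot.bF' s - potRate P.D.p s * P.pot.bF s -
          P.D.nu * ((P.D.p : ℝ) + 4) * P.D.g ^ 2) * δ ^ 2 * v +
        2 * P.pot.sb s * δ * (v - 1) * v +
        2 * P.D.nu * (1 + P.D.g) * ((1 - s ^ 2) * (v - 1) ^ 2) +
        2 * P.D.nu * P.D.g * (1 + P.D.g) * (s ^ 2 * δ ^ 2) -
        2 * P.D.nu * (P.D.g ^ 2 - 1) * (s ^ 2 * δ * (v - 1)) := by
      have hb : 2 * P.pot.sb s = 2 * (s * P.pot.bF s) := by rw [Par.bF]; field_simp
      have hk : P.pot.kF s = evE P.D.K s - (P.D.gz + P.ez) / arc s := by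
        rw [Par.kF, P.pot_gz]; rfl
      rw [P.cell_eq h, Grid.cell_eq (D := P.pot) h, hpn, hpg, hpp, P.pot_gz, ← hvd, ← hdd, hb, hk]
      have := hca.ne'
      have := ha.ne'
      have := hv.ne'
      field_simp
      ring
    simp only [goalV, kC, kD, kM]
    rw [mul_sub v (P.cell ell s t a r), hX]
    have hw0 : e.Q.R.w.ev s ≤ wS P.D.p (arc s) := hR.pot.w
    have hquD : e.Q.R.quD.ev s ≤ s ^ 2 * (P.pot.bF' s - potRate P.D.p s * P.pot.bF s -
        P.D.nu * ((P.D.p : ℝ) + 4) * P.D.g ^ 2) := hR.pot.quD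
    have g0 := mul_le_mul_of_nonneg_right hw0 (mul_nonneg hell hv.le)
    obtain ⟨hσd, hσv, hσm⟩ : (e.Q.R.sig σ).ev s * δ ≤
          s * (P.pot.kF' s - potRate P.D.p s * P.pot.kF s - P.pot.c0 * s) * δ ∧
        (e.Q.R.lam σ).ev s * (v - 1) ≤ (evE P.D.K s - P.ez / arc s) * (v - 1) ∧
        (e.Q.R.mix σ).ev s * (δ * (v - 1)) ≤ 2 * P.pot.sb s * (δ * (v - 1)) := by
      cases σ <;> obtain ⟨s1, s2⟩ := hσ <;> simp only at s1 s2 <;>
        simp only [Row.sig, Row.lam, Row.mix]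
      · exact ⟨mul_le_mul_of_nonneg_right hR.pot.sigL s1,
          mul_le_mul_of_nonneg_right hR.lamL (sub_nonneg.2 s2),
          mul_le_mul_of_nonneg_right hR.pot.mixL (mul_nonneg s1 (sub_nonneg.2 s2))⟩
      · exact ⟨mul_le_mul_of_nonneg_right hR.pot.sigL s1,
          mul_le_mul_of_nonpos_right hR.lamU (sub_nonpos.2 s2),
          mul_le_mul_of_nonpos_right hR.pot.mixU
            (mul_nonpos_of_nonneg_of_nonpos s1 (sub_nonpos.2 s2))⟩
      · exact ⟨mul_le_mul_of_nonpos_right hR.pot.sigU s1,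
          mul_le_mul_of_nonneg_right hR.lamL (sub_nonneg.2 s2),
          mul_le_mul_of_nonpos_right hR.pot.mixU
            (mul_nonpos_of_nonpos_of_nonneg s1 (sub_nonneg.2 s2))⟩
      · exact ⟨mul_le_mul_of_nonpos_right hR.pot.sigU s1,
          mul_le_mul_of_nonpos_right hR.lamU (sub_nonpos.2 s2),
          mul_le_mul_of_nonneg_right hR.pot.mixL
            (mul_nonneg_of_nonpos_of_nonpos s1 (sub_nonpos.2 s2))⟩
    have g1 := mul_le_mul_of_nonneg_right hσd hv.le
    have g2 := mul_le_mul_of_nonneg_right hσv hv.le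
    have g3 := mul_le_mul_of_nonneg_right hσm hv.le
    have g4 := mul_le_mul_of_nonneg_right hquD (mul_nonneg (sq_nonneg δ) hv.le)
    have hexc : ((P.D.p : ℝ) + 1) * (arc s / a - 1) - (v - 1) ≤ 0 := by
      have hb := one_add_mul_le_pow (show -2 ≤ arc s / a - 1 by
        linarith [div_nonneg hca.le ha.le]) (P.D.p + 1)
      rw [add_sub_cancel] at hb
      have hrt : (arc s / a) ^ (P.D.p + 1) = v := Grid.root_rate (D := P.pot) h
      rw [hrt] at hb
      push_cast at hb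
      linarith
    have g5 := mul_le_mul_of_nonpos_right hR.shR hexc
    have g6 : e.Q.R.shR.ev s * (Q.sh.ev v - (v - 1)) ≤
        P.D.gz / arc s * (((P.D.p : ℝ) + 1) * (arc s / a - 1) - (v - 1)) := by
      exact (mul_le_mul_of_nonneg_left (sub_le_sub_right hw _)
        ((div_nonneg hG hca.le).trans hR.shR)).trans g5
    have g7 := mul_le_mul_of_nonneg_right g6 hv.le
    linarith
  · simp only [upV]
    rw [hdd]
    have hH : Real.exp (ell / 2) ≤ (k.hR : ℝ) / sR := by
      have h1 := expOk_sound xR hl0 hl1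
      push_cast at h1
      rw [show (1 : ℝ) / 2 * ell = ell / 2 by ring] at h1
      refine h1.trans ?_
      have a1 : (0 : ℝ) ≤ k.k.eRoot.c1 := by exact_mod_cast hr1
      have a2 := (Int.cast_le (R := ℝ)).2 hr2
      push_cast [scl] at a2
      have a3 := mul_le_mul_of_nonneg_left hl1 a1
      simp only [L2.ev]
      refine div_le_div_of_nonneg_right ?_ (by norm_num)
      simp only [sR] at a3
      linarith
    have hpos : 0 ≤ (k.hR : ℝ) / sR * (ell * e.Q.R.loU.ev s * (1 + 1 / r)) := by positivity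
    rcases le_or_gt t s with c | c
    · linarith
    have hd : 0 < (t - s) / s := div_pos (sub_pos.2 c) hs.1
    have h1 := Cor.Tiny.box_hi h hell rfl rfl hd (H := e.Q.R.loU.ev s / s)
      (hloU.trans (le_of_eq (by field_simp)))
    rw [div_le_iff₀ hs.1] at h1
    have h2 : t - s ≤ ell * Real.exp (ell / 2) * e.Q.R.loU.ev s * √(1 / r) :=
      h1.trans (le_of_eq (by field_simp))
    have h3 : 2 * √(1 / r) ≤ 1 + 1 / r := by
      nlinarith [sq_nonneg (√(1 / r) - 1), Real.sq_sqrt hv.le]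
    have h4 := mul_le_mul hH h3 (by positivity) ((Real.exp_pos _).le.trans hH)
    have h5 := mul_le_mul_of_nonneg_left h4 (mul_nonneg hell hL0)
    linarith
  · simp only [tailV] at hd ⊢
    rw [hm']
    have hd0 : 0 ≤ t - s := by rw [← hdd]; exact mul_nonneg hs.1.le hd
    have key : (1 / r) * (Real.log (1 / r) - ell) * (1 - s ^ 2) ≤
        (t - s) / s * (((P.D.p : ℝ) + 3) * s ^ 2 + 1) := by
      rcases hd0.eq_or_lt with c | c
      · rw [← c, zero_div, zero_mul]
        refine mul_nonpos_of_nonpos_of_nonneg (mul_nonpos_of_nonneg_of_nonpos hv.le ?_) hz.le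
        have := Real.log_le_log hv (inv_rate_le_diag h (by linarith))
        rw [Real.log_exp] at this
        linarith
      · have h1 := Cor.Tiny.tail_fact h (u := s) (L := 0) ⟨hs.1.le, by linarith⟩ rfl
          (sub_self _).ge
        rw [zero_add, ← mul_div_assoc, le_div_iff₀ hz] at h1
        exact h1
    have h6 := mul_le_mul_of_nonneg_left hQ hz.le
    linarith

end Vale.Agent.P237.Petty.Cor.Grid.Tiny
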