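import Vale.Agent.P237.Petty.Cor.Grid.Tail
import Vale.Agent.P237.Petty.Cor.Grid.Tiny.State

/-!
# P237: the sign of a tiny cell near the end

With `w = arc s / a` and `x = (t - s) / arc s ^ 2` the cell times `arc s` is the value times a
positive constant, plus a function of `w`, plus `x` times a positive coefficient, up to terms of
order `arc s ^ 3`. The cut, the tail chord at the abscissa of the circle and the mass above bound
`x` from below, and leave inequalities between polynomials in `w`.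
-/

namespace Vale.Agent.P237.Petty.Cor.Grid.Tiny

open MeasureTheory Set Grid
open Vale.Agent.P100.Bernstein (Expr)
open Lift (circLow circHigh)

/-- The data of the end; integers are over `2 ^ 24`. -/
structure EndD where
  /-- the start -/
  xe : ℤ
  /-- the half circle at the start, from above -/
  cT : ℤ
  /-- a bound of the polynomial of the potential -/
  Kb : ℤ
  /-- a bound of its derivative -/
  Kd : ℤ
  /-- a bound of the second potential -/
  F0 : ℤ
  /-- a bound of its derivative -/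
  F1 : ℤ
  /-- the coefficient of `u`, where it is positive -/
  Gp : ℤ
  /-- the coefficient of `u`, where it is negative -/
  Gm : ℤ
  /-- the coefficient of `x`, from below -/
  SP : ℤ
  /-- the coefficient of `x`, from above -/
  SM : ℤ
  /-- the coefficient of the value, from below -/
  Wl : ℤ
  /-- the exponential of the value, from above -/
  eMax : ℤ
  /-- the largest ratio -/
  wM : ℤ
  /-- a ratio with power at most one half -/
  wh : ℤ
  /-- a bound of `|u|` -/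
  U : ℕ
  /-- a bound of `c0` -/
  cB : ℕ
  /-- the polynomial of the potential, from below -/
  Kl : ℤ
  /-- the polynomial of the potential, from above -/
  Ku : ℤ
  /-- the coefficients of `u` and `x` above the diagonal, at the abscissa one -/
  G1 : ℤ
  /-- see `G1` -/
  S1 : ℤ
  /-- the coefficients of `u` and `x` above the diagonal, at the start -/
  G2 : ℤ
  /-- see `G2` -/
  S2 : ℤ
  /-- intervals of the ratio with the share of the cut -/
  ps : List (ℤ × ℤ × ℤ)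

namespace EndD

variable (E : EndD) (P : ParT) (k : CstT)

/-- The terms of higher order. -/
def restX : Expr :=
  let nu : Expr := .frac P.D.nuN 16384
  let gg : Expr := .mul (.frac P.D.gN 32) (.frac P.D.gN 32)
  .add (.add (.mul (.mul (cE E.cT) (cE E.cT))
      (.add (cE E.F1) (.mul (.mul nu (.num (P.D.p + 4))) gg)))
    (.mul (.num (P.D.p + 1)) (cE E.F0)))
    (.mul (.num (2 * E.U)) (.add (cE E.F0) (.mul nu gg)))

/-- The terms of higher order in the coefficient of `x`. -/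
def errX : Expr :=
  .add (.mul (cE E.cT) (.mul (.num (P.D.p + 1)) (cE E.Kb)))
    (.mul (.mul (.mul (cE E.cT) (cE E.cT)) (cE E.cT))
      (.add (.add (cE E.Kd) (.num E.cB)) (E.restX P)))

/-- The condition below the diagonal. -/
def negX : Expr :=
  let k1 : Expr := cE k.k.eVal.c1
  .sub (.mul (.mul (.num (P.D.p + 3)) (cE E.xe))
      (.add (.sub (.mul (cE E.Wl) (cE E.eMax)) (.mul (.mul (cE E.Gp) k1) (cE E.eMax)))
        (.mul (cE P.D.G0) k1)))
    (.mul (.mul (cE E.SM) k1) (cE E.eMax))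

/-- The condition in the ratio, above one. -/
def upX (gc sc th : ℤ) (l : Expr) : Expr :=
  let w : Expr := .var 0
  let q : Expr := .add (.num 4) (.mul (.num 2) w)
  let v : Expr := .pow w (P.D.p + 1)
  let m : Expr := .num (P.D.p + 1)
  .add (.add
    (.mul (.mul (.mul (.num (2 * (P.D.p + 4))) (.mul w w)) q)
      (.sub (.add (.mul l (cE E.Wl)) (.mul (.mul (cE P.D.G0) m) (.sub w (.num 1))))
        (.mul (cE gc) (.sub v (.num 1)))))
    (.mul (.mul (.mul (.mul (cE th) (cE sc)) (.num (P.D.p + 4))) q)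
      (.sub (.sub (.mul w w) (.num 1)) (.mul (cE k.k.eCut.c1) l))))
    (.mul (.mul (.mul (.mul (cE (scl - th)) (cE sc)) (.num 2)) v)
      (.sub (.mul (.mul (.mul m w) (.sub w (.num 1))) (.add (.num 1) (.mul (.num 5) w)))
        (.mul (.mul l (.mul w w)) q)))

/-- The condition in the ratio below one, without `x`. -/
def midX : Expr :=
  .add (.mul (.mul (cE P.D.G0) (.num (P.D.p + 1))) (.sub (.var 0) (.num 1)))
    (.mul (cE E.Gm) (.sub (.num 1) (.pow (.var 0) (P.D.p + 1))))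

/-- The condition in the ratio below one. -/
def lowX : Expr :=
  .add (E.midX P) (.mul (cE E.SP) (.sub (.frac 1 2) (.pow (.var 0) (P.D.p + 1))))

/-- The intervals cover. -/
def coverW : ℤ → ℤ → List (ℤ × ℤ × ℤ) → Bool
  | _, _, [] => false
  | a, b, [e] => decide (e.1 ≤ a) && decide (b ≤ e.2.1)
  | a, b, e :: f :: l => decide (e.1 ≤ a) && coverW e.2.1 b (f :: l)

/-- The check of an interval of the ratio. -/
def upOk (l1 : ℤ) (e : ℤ × ℤ × ℤ) : Bool :=
  decide (0 ≤ e.2.2) && decide (e.2.2 ≤ scl) &&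
    nonneg1 (E.upX P k E.G1 E.S1 e.2.2 (.num 0)) e.1 e.2.1 &&
    nonneg1 (E.upX P k E.G1 E.S1 e.2.2 (cE l1)) e.1 e.2.1 &&
    nonneg1 (E.upX P k E.G2 E.S2 e.2.2 (.num 0)) e.1 e.2.1 &&
    nonneg1 (E.upX P k E.G2 E.S2 e.2.2 (cE l1)) e.1 e.2.1

/-- The conditions on the coefficients above the diagonal. -/
def highOk : Bool :=
  nonneg1 (.sub (evX P.D.K) (cE E.Kl)) E.xe scl && nonneg1 (.sub (cE E.Ku) (evX P.D.K)) E.xe scl &&
  decide (0 ≤ E.Ku) && decide (0 ≤ E.S1) && decide (0 ≤ E.S2) && decide (0 < E.cT) &&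
  decide (P.D.G0 + P.E0 ≤ E.G1) &&
  nonneg1 (.sub (.mul (.mul (.num P.D.p) (cE (P.D.G0 + P.E0))) (cE E.xe)) (cE E.S1)) 0 0 &&
  nonneg1 (.sub (cE E.G2) (.sub (cE (P.D.G0 + P.E0)) (.mul (cE E.cT) (cE E.Kl)))) 0 0 &&
  nonneg1 (.sub (.sub (.mul (.mul (.num P.D.p) (cE (P.D.G0 + P.E0))) (cE E.xe))
    (.add (.mul (cE E.cT) (.mul (.num (P.D.p + 1)) (cE E.Ku)))
      (.mul (.mul (.mul (cE E.cT) (cE E.cT)) (cE E.cT))
        (.add (.add (cE E.Kd) (.num E.cB)) (E.restX P))))) (cE E.S2)) 0 0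

/-- The bounds on the potentials. -/
def potOk : Bool :=
  nonneg1 (.sub (cE E.Kb) (evX P.D.K)) E.xe scl && nonneg1 (.add (cE E.Kb) (evX P.D.K)) E.xe scl &&
  nonneg1 (.sub (cE E.Kd) (dX P.D.K)) E.xe scl && nonneg1 (.add (cE E.Kd) (dX P.D.K)) E.xe scl &&
  nonneg1 (.sub (.mul (cE E.F0) (.var 0)) P.pot.sbX) E.xe scl &&
  nonneg1 (.add (.mul (cE E.F0) (.var 0)) P.pot.sbX) E.xe scl &&
  nonneg1 (.sub (.mul (cE E.F1) (.mul (.var 0) (.var 0))) (.sub (.mul (.var 0) P.pot.sbX') P.pot.sbX))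
    E.xe scl &&
  nonneg1 (.add (.mul (cE E.F1) (.mul (.var 0) (.var 0))) (.sub (.mul (.var 0) P.pot.sbX') P.pot.sbX))
    E.xe scl &&
  nonneg1 (.sub (.mul (.num E.cB) (.mul (cE P.D.bl) (cE P.D.bl))) (P.pot.c0X P.D.bl)) 0 0 &&
  nonneg1 (.add (.mul (.num E.cB) (.mul (cE P.D.bu) (cE P.D.bu))) (P.pot.c0X P.D.bu)) 0 0

/-- The relations between the scalars. -/
def numOk (l1 : ℤ) : Bool :=
  decide (0 < E.xe) && decide (E.xe < scl) && decide (0 ≤ E.cT) &&
  decide (scl * scl - E.xe * E.xe ≤ E.cT * E.cT) && decide (32 ≤ P.D.gN) &&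
  decide (((P.D.p : ℤ) + 2) * scl ≤ ((P.D.p : ℤ) + 3) * E.xe) &&
  decide (scl ≤ E.wM) && decide (0 ≤ E.wh) && decide (E.wh ≤ scl) &&
  decide (2 * E.wh ^ (P.D.p + 1) ≤ scl ^ (P.D.p + 1)) &&
  decide (((P.D.p : ℤ) + 3) * scl * scl ^ (P.D.p + 1) ≤ E.wM ^ (P.D.p + 1) * (scl + E.xe)) &&
  decide (E.wM ^ (P.D.p + 1) ≤ ((E.U : ℤ) + 1) * scl ^ (P.D.p + 1)) && decide (1 ≤ E.U) &&
  decide (E.eMax ≤ 2 * scl) &&
  decide (k.k.eVal.c0 = scl) && decide (k.k.eCut.c0 = scl) && decide (0 ≤ k.k.eVal.c1) &&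
  decide (k.k.eVal.c0 * scl + k.k.eVal.c1 * l1 ≤ E.eMax * scl) &&
  decide (k.k.eVal.c1 * l1 ≤ ((P.D.p : ℤ) + 3) * E.xe * scl) &&
  decide (0 ≤ E.Wl) && decide (0 ≤ E.SP) && decide (0 ≤ P.D.G0) && decide (0 ≤ P.E0) &&
  decide (P.D.G0 + P.E0 ≤ E.Gp) &&
  nonneg1 (.sub (cE E.Gp) (.add (cE (P.D.G0 + P.E0)) (.mul (cE E.cT) (cE E.Kb)))) 0 0 &&
  nonneg1 (.sub (.sub (cE (P.D.G0 + P.E0)) (.mul (cE E.cT) (cE E.Kb))) (cE E.Gm)) 0 0 &&
  nonneg1 (.sub (.sub (.mul (.mul (.num P.D.p) (cE (P.D.G0 + P.E0))) (cE E.xe)) (E.errX P))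
    (cE E.SP)) 0 0 &&
  nonneg1 (.sub (cE E.SM) (.add (.mul (.num P.D.p) (cE (P.D.G0 + P.E0))) (E.errX P))) 0 0 &&
  nonneg1 (.sub (.sub (.mul (.num P.D.p) (cE P.D.bl)) (.mul (.frac (3 * P.D.p) 2) (cE E.cT)))
    (cE E.Wl)) 0 0

/-- The check of the end. -/
def ok (l0 l1 : ℤ) : Bool :=
  cstTOk P k l0 l1 && bracketOk P.D.p P.D.bl P.D.bu && E.potOk P && E.numOk P k l1 &&
  nonneg1 (E.negX P k) 0 0 && nonneg1 (E.lowX P) 0 E.wh && nonneg1 (E.midX P) E.wh scl &&
  coverW scl E.wM E.ps && E.ps.all (E.upOk P k l1) && E.highOk P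

theorem coverW_mem : ∀ (L : List (ℤ × ℤ × ℤ)) (a b : ℤ), coverW a b L = true → ∀ x : ℝ,
    (a : ℝ) ≤ sR * x → sR * x ≤ b → ∃ e ∈ L, (e.1 : ℝ) ≤ sR * x ∧ sR * x ≤ e.2.1
  | [], _, _, h, _, _, _ => by simp [coverW] at h
  | [e], a, b, h, s, h1, h2 => by
    simp only [coverW, Bool.and_eq_true, decide_eq_true_eq] at h
    exact ⟨e, List.mem_singleton_self _, ((Int.cast_le (R := ℝ)).2 h.1).trans h1,
      h2.trans ((Int.cast_le (R := ℝ)).2 h.2)⟩
  | e :: f :: l, a, b, h, s, h1, h2 => by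
    simp only [coverW, Bool.and_eq_true, decide_eq_true_eq] at h
    rcases le_total (sR * s) e.2.1 with c | c
    · exact ⟨e, List.mem_cons_self, ((Int.cast_le (R := ℝ)).2 h.1).trans h1, c⟩
    · obtain ⟨ρ, hρ, hm⟩ := coverW_mem (f :: l) _ b h.2 s c h2
      exact ⟨ρ, List.mem_cons_of_mem _ hρ, hm⟩

end EndD

/-- An affine function that is nonnegative at both ends of an interval. -/
theorem affine_nonneg {A B l L : ℝ} (hA : 0 ≤ A) (hB : 0 ≤ A + L * B) (h0 : 0 ≤ l) (h1 : l ≤ L) :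
    0 ≤ A + l * B := by
  rcases le_total 0 B with c | c
  · linarith [mul_nonneg h0 c]
  · linarith [mul_le_mul_of_nonpos_right h1 c]

/-- The shadow from below through the power of the ratio. -/
theorem root_ge {w : ℝ} {m : ℕ} (hw : 0 < w) (hm : 1 ≤ m) :
    w ^ m - 1 ≤ (m : ℝ) * (w - 1) * w ^ (m - 1) := by
  have h := one_add_mul_le_pow (show (-2 : ℝ) ≤ 1 / w - 1 by
    linarith [one_div_pos.2 hw]) m
  rw [add_sub_cancel] at h
  have h2 := mul_le_mul_of_nonneg_right h (pow_nonneg hw.le m)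
  rw [div_pow, one_pow, div_mul_cancel₀ _ (pow_ne_zero _ hw.ne')] at h2
  obtain ⟨i, rfl⟩ : ∃ i, m = i + 1 := ⟨m - 1, by omega⟩
  simp only [Nat.add_sub_cancel] at h2 ⊢
  rw [pow_succ] at h2 ⊢
  have e : (1 / w - 1) * (w ^ i * w) = (1 - w) * w ^ i := by field_simp
  rw [add_mul, one_mul, mul_assoc, e] at h2
  linarith

/-- The terms of higher order: the quadratic part, the cross term and the test. -/
theorem high_terms {c cT x s u v U m nu g N b db F0 F1 d : ℝ} (hc : 0 < c) (hcT : c ≤ cT)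
    (hs : 0 < s) (hs1 : s ≤ 1) (hv : 0 < v) (huv : u = v - 1) (hu : |u| ≤ U) (hU : 1 ≤ U)
    (hm : 0 ≤ m) (hN : 0 ≤ N) (hnu : 0 ≤ nu) (hg : 1 ≤ g) (hb : |b| ≤ F0 * s)
    (hdb : |db * s - b| ≤ F1 * s ^ 2) (hx : |x| ≤ 1) (hd : d = c ^ 2 * x)
    (hneg : u < 0 → x < 0 → 1 / 2 ≤ v) :
    -(c ^ 3 * ((cT * cT * (F1 + N) + m * F0 + 2 * U * (F0 + nu * g ^ 2)) * |x|)) ≤
      (c ^ 3 * ((db * s - b) / s ^ 2 - N) - c * (m * b)) * (d ^ 2 / c ^ 2) +
        c * (2 * (b / s)) * (u * d) +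
        c * ((2 * nu * g * (1 + g) * d ^ 2 + 2 * nu * (1 + g) * c ^ 2 * u ^ 2 -
          2 * nu * s * (g ^ 2 - 1) * u * d) / v) := by
  have hF0 : 0 ≤ F0 := nonneg_of_mul_nonneg_left ((abs_nonneg b).trans hb) hs
  have hF1 : 0 ≤ F1 := nonneg_of_mul_nonneg_left ((abs_nonneg _).trans hdb) (pow_pos hs 2)
  have e1 : -F1 - N ≤ (db * s - b) / s ^ 2 - N := by
    have : -F1 ≤ (db * s - b) / s ^ 2 := by
      rw [le_div_iff₀ (pow_pos hs 2)]
      linarith [neg_abs_le (db * s - b)]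
    linarith
  have hb' : b ≤ F0 := (le_abs_self b).trans (hb.trans (mul_le_of_le_one_right hF0 hs1))
  have q1 : -(c ^ 3 * ((cT * cT * (F1 + N) + m * F0) * |x|)) ≤
      (c ^ 3 * ((db * s - b) / s ^ 2 - N) - c * (m * b)) * (d ^ 2 / c ^ 2) := by
    have e : d ^ 2 / c ^ 2 = c ^ 2 * x ^ 2 := by rw [hd]; field_simp
    rw [e]
    have hx2 : x ^ 2 ≤ |x| := by
      rw [← sq_abs, sq]; exact mul_le_of_le_one_left (abs_nonneg _) hx
    have a1 : -((cT * cT * (F1 + N) + m * F0)) ≤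
        c ^ 2 * ((db * s - b) / s ^ 2 - N) - m * b := by
      have b1 := mul_le_mul_of_nonneg_left e1 (sq_nonneg c)
      have b2 := mul_le_mul_of_nonneg_right (pow_le_pow_left₀ hc.le hcT 2)
        (add_nonneg hF1 hN)
      have b3 := mul_le_mul_of_nonneg_left hb' hm
      linarith
    have a2 := mul_le_mul_of_nonneg_right a1 (mul_nonneg (pow_nonneg hc.le 3) (sq_nonneg x))
    have a3 : c ^ 3 * ((cT * cT * (F1 + N) + m * F0) * x ^ 2) ≤
        c ^ 3 * ((cT * cT * (F1 + N) + m * F0) * |x|) :=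
      mul_le_mul_of_nonneg_left (mul_le_mul_of_nonneg_left hx2
        (add_nonneg (mul_nonneg (mul_self_nonneg cT) (add_nonneg hF1 hN)) (mul_nonneg hm hF0))) (pow_nonneg hc.le 3)
    linarith
  have q2 : -(c ^ 3 * (2 * F0 * U * |x|)) ≤ c * (2 * (b / s)) * (u * d) := by
    have hbs : |b / s| ≤ F0 := by
      rw [abs_div, abs_of_pos hs, div_le_iff₀ hs]; exact hb
    have h1 : |b / s * u * x| ≤ F0 * U * |x| := by
      rw [abs_mul, abs_mul]
      exact mul_le_mul_of_nonneg_right (mul_le_mul hbs hu (abs_nonneg _) hF0) (abs_nonneg _)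
    have h2 := mul_le_mul_of_nonneg_left (neg_le_of_abs_le h1)
      (show 0 ≤ 2 * c ^ 3 by positivity)
    rw [hd]
    linarith
  have q3 : -(c ^ 3 * (2 * (nu * g ^ 2) * U * |x|)) ≤
      c * ((2 * nu * g * (1 + g) * d ^ 2 + 2 * nu * (1 + g) * c ^ 2 * u ^ 2 -
        2 * nu * s * (g ^ 2 - 1) * u * d) / v) := by
    have hg1 : 0 ≤ g ^ 2 - 1 := by nlinarith
    have h1 : u * x / v ≤ U * |x| := by
      rcases le_total (u * x) 0 with c1 | c1
      · exact (div_nonpos_of_nonpos_of_nonneg c1 hv.le).trans (by positivity)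
      rcases lt_or_ge u 0 with c2 | c2
      · rcases eq_or_ne x 0 with rfl | hx0
        · simp
        have c3 : x < 0 := by
          rcases lt_or_gt_of_ne hx0 with c4 | c4
          · exact c4
          · nlinarith
        have hv2 := hneg c2 c3
        rw [div_le_iff₀ hv, abs_of_neg c3]
        have b1 : -u ≤ U * v := by nlinarith
        have b2 := mul_le_mul_of_nonneg_right b1 (neg_nonneg.2 c3.le)
        linarith
      · rw [div_le_iff₀ hv]
        have hv1 : 1 ≤ v := by linarith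
        refine (le_abs_self (u * x)).trans ?_
        rw [abs_mul]
        refine (mul_le_mul_of_nonneg_right hu (abs_nonneg x)).trans ?_
        exact le_mul_of_one_le_right (by positivity) hv1
    have h2 : s * (g ^ 2 - 1) * (u * x / v) ≤ g ^ 2 * (U * |x|) :=
      (mul_le_mul_of_nonneg_left h1 (mul_nonneg hs.le hg1)).trans
        (mul_le_mul_of_nonneg_right (by nlinarith) (by positivity))
    have h3 : 0 ≤ (2 * nu * g * (1 + g) * d ^ 2 + 2 * nu * (1 + g) * c ^ 2 * u ^ 2) / v := by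
      positivity
    have h4 := mul_le_mul_of_nonneg_left h2 (show 0 ≤ 2 * nu * c ^ 3 by positivity)
    have h5 := mul_nonneg hc.le h3
    have e : c * ((2 * nu * g * (1 + g) * d ^ 2 + 2 * nu * (1 + g) * c ^ 2 * u ^ 2 -
        2 * nu * s * (g ^ 2 - 1) * u * d) / v) =
        c * ((2 * nu * g * (1 + g) * d ^ 2 + 2 * nu * (1 + g) * c ^ 2 * u ^ 2) / v) -
          2 * nu * c ^ 3 * (s * (g ^ 2 - 1) * (u * x / v)) := by
      rw [hd]; field_simp
    rw [e]
    linarith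
  linarith

end Vale.Agent.P237.Petty.Cor.Grid.Tiny
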