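import Vale.Agent.P237.Petty.Cor.Grid.Tiny.EndState

/-!
# P237: the inequalities of the end in real scalars
-/

namespace Vale.Agent.P237.Petty.Cor.Grid.Tiny

/-- The coefficient of the value near the end. -/
theorem value_part {p b bl c cT : ℝ} (hp : 0 ≤ p) (hc : 0 < c) (hcT : c ≤ cT) (hb : 0 < b)
    (hbl : bl ≤ b) :
    p * bl - 3 * p / 2 * cT ≤ c * (p / (2 * b ^ 2) * (c - b) ^ 2 * (c + 2 * b) / c) := by
  have e : c * (p / (2 * b ^ 2) * (c - b) ^ 2 * (c + 2 * b) / c) =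
      p * b - 3 * p / 2 * c + p / (2 * b ^ 2) * c ^ 3 := by field_simp; ring
  rw [e]
  have h1 := mul_le_mul_of_nonneg_left hbl hp
  have h2 := mul_le_mul_of_nonneg_left hcT (show 0 ≤ 3 * p / 2 by positivity)
  have h3 : 0 ≤ p / (2 * b ^ 2) * c ^ 3 := by positivity
  linarith

/-- The coefficient of `x` with the terms of higher order. -/
theorem x_part {c cT s xe p gp K dK c0 Kb Kd cB R SP SM x T : ℝ} (hc : 0 < c) (hcT : c ≤ cT)
    (hxe : xe ≤ s) (hs0 : 0 ≤ s) (hs1 : s ≤ 1) (hp : 0 ≤ p) (hgp : 0 ≤ gp) (hR : 0 ≤ R)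
    (hK : |K| ≤ Kb) (hdK : |dK| ≤ Kd) (hc0 : |c0| ≤ cB) (hT : -(c ^ 3 * (R * |x|)) ≤ T)
    (hSP : SP ≤ p * gp * xe - (cT * ((p + 1) * Kb) + cT * cT * cT * (Kd + cB + R)))
    (hSM : p * gp + (cT * ((p + 1) * Kb) + cT * cT * cT * (Kd + cB + R)) ≤ SM) :
    (0 ≤ x → SP * x ≤
      (c ^ 3 * dK - gp * s - (p + 1) * s * (c * K - gp) - c ^ 3 * s * c0) * x + T) ∧
    (x ≤ 0 → SM * x ≤
      (c ^ 3 * dK - gp * s - (p + 1) * s * (c * K - gp) - c ^ 3 * s * c0) * x + T) := by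
  have hKb : 0 ≤ Kb := (abs_nonneg _).trans hK
  have hcB : 0 ≤ cB := (abs_nonneg _).trans hc0
  have hKd : 0 ≤ Kd := (abs_nonneg _).trans hdK
  have hcT0 : 0 ≤ cT := hc.le.trans hcT
  have h3 : c ^ 3 ≤ cT * cT * cT := (pow_le_pow_left₀ hc.le hcT 3).trans (le_of_eq (by ring))
  have h3' : 0 ≤ c ^ 3 := by positivity
  have a1 : |c ^ 3 * (dK - s * c0)| ≤ cT * cT * cT * (Kd + cB) := by
    rw [abs_mul, abs_of_nonneg h3']
    refine mul_le_mul h3 ((abs_sub _ _).trans (add_le_add hdK ?_)) (abs_nonneg _) (by positivity)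
    rw [abs_mul, abs_of_nonneg hs0]
    exact (mul_le_of_le_one_left (abs_nonneg _) hs1).trans hc0
  have a2 : |(p + 1) * s * (c * K)| ≤ cT * ((p + 1) * Kb) := by
    rw [abs_mul, abs_mul, abs_mul, abs_of_nonneg (show 0 ≤ p + 1 by linarith),
      abs_of_nonneg hs0, abs_of_pos hc]
    have b1 : c * |K| ≤ cT * Kb := mul_le_mul hcT hK (abs_nonneg _) hcT0
    have b2 := mul_le_mul_of_nonneg_left b1 (show 0 ≤ p + 1 by linarith)
    have b3 : (p + 1) * s * (c * |K|) ≤ (p + 1) * (c * |K|) := by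
      rw [mul_assoc]
      exact mul_le_mul_of_nonneg_left (mul_le_of_le_one_left (by positivity) hs1) (by linarith)
    linarith
  obtain ⟨a1l, a1u⟩ := abs_le.1 a1
  obtain ⟨a2l, a2u⟩ := abs_le.1 a2
  have a3 : p * gp * xe ≤ p * gp * s := mul_le_mul_of_nonneg_left hxe (by positivity)
  have a4 : p * gp * s ≤ p * gp := mul_le_of_le_one_right (by positivity) hs1
  have hT' : -(cT * cT * cT * R * |x|) ≤ T := by
    refine le_trans ?_ hT
    have := mul_le_mul_of_nonneg_right h3 (mul_nonneg hR (abs_nonneg x))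
    linarith
  constructor
  · intro hx
    rw [abs_of_nonneg hx] at hT'
    have h1 : SP + cT * cT * cT * R ≤
        c ^ 3 * dK - gp * s - (p + 1) * s * (c * K - gp) - c ^ 3 * s * c0 := by linarith
    have := mul_le_mul_of_nonneg_right h1 hx
    linarith
  · intro hx
    rw [abs_of_nonpos hx] at hT'
    have h1 : c ^ 3 * dK - gp * s - (p + 1) * s * (c * K - gp) - c ^ 3 * s * c0 ≤
        SM - cT * cT * cT * R := by linarith
    have := mul_le_mul_of_nonpos_right h1 hx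
    linarith

/-- The coefficients above the diagonal: between their values at the abscissa one and at the
start. -/
theorem high_part {c cT s xe p gp K dK c0 Kl Ku Kd cB R G1 S1 G2 S2 u x T Y : ℝ} (hc : 0 < c)
    (hcT : c ≤ cT) (hxe : xe ≤ s) (hs0 : 0 ≤ s) (hs1 : s ≤ 1) (hp : 0 ≤ p) (hgp : 0 ≤ gp)
    (hR : 0 ≤ R) (hKl : Kl ≤ K) (hKu : K ≤ Ku) (hKu0 : 0 ≤ Ku) (hdK : |dK| ≤ Kd)
    (hc0 : |c0| ≤ cB) (hu : 0 ≤ u) (hx : 0 ≤ x) (hT : -(c ^ 3 * (R * |x|)) ≤ T)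
    (hG1 : gp ≤ G1) (hS1 : S1 ≤ p * gp * xe) (hG2 : gp - cT * Kl ≤ G2)
    (hS2 : S2 ≤ p * gp * xe - (cT * ((p + 1) * Ku) + cT * cT * cT * (Kd + cB + R)))
    (h1 : 0 ≤ Y - G1 * u + S1 * x) (h2 : 0 ≤ Y - G2 * u + S2 * x) :
    0 ≤ Y + (c * K - gp) * u +
      (c ^ 3 * dK - gp * s - (p + 1) * s * (c * K - gp) - c ^ 3 * s * c0) * x + T := by
  have hcT0 : 0 < cT := hc.trans_le hcT
  rw [abs_of_nonneg hx] at hT
  have hcB : 0 ≤ cB := (abs_nonneg _).trans hc0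
  have hKd : 0 ≤ Kd := (abs_nonneg _).trans hdK
  have a1 : -(Kd + cB) ≤ dK - s * c0 := by
    have h3 : s * c0 ≤ cB := (mul_le_mul_of_nonneg_left ((le_abs_self c0).trans hc0) hs0).trans
      (mul_le_of_le_one_left hcB hs1)
    linarith [(abs_le.1 hdK).1]
  have a2 : -(c * (cT * cT) * (Kd + cB + R) * x) ≤ c ^ 3 * (dK - s * c0) * x - c ^ 3 * (R * x) := by
    have h3 := mul_le_mul_of_nonneg_left
      (mul_le_mul hcT hcT hc.le hcT0.le) (mul_nonneg (mul_nonneg hc.le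
        (show 0 ≤ Kd + cB + R by linarith)) hx)
    have h4 := mul_le_mul_of_nonneg_left a1 (mul_nonneg (pow_nonneg hc.le 3) hx)
    linarith
  have a3 : -((p + 1) * c * Ku * x) ≤ -((p + 1) * s * (c * K) * x) := by
    have h3 : s * K ≤ Ku := (mul_le_mul_of_nonneg_left hKu hs0).trans
      (mul_le_of_le_one_left hKu0 hs1)
    have h4 := mul_le_mul_of_nonneg_left h3
      (show 0 ≤ (p + 1) * c * x by positivity)
    linarith
  have a4 := mul_le_mul_of_nonneg_left hKl (mul_nonneg hc.le hu)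
  have a5 := mul_le_mul_of_nonneg_left hxe (mul_nonneg (mul_nonneg hp hgp) hx)
  refine nonneg_of_mul_nonneg_right ?_ hcT0
  have b1 := mul_nonneg (sub_nonneg.2 hcT) h1
  have b2 := mul_nonneg hc.le h2
  have b3 := mul_le_mul_of_nonneg_left (mul_le_mul_of_nonneg_right hG1 hu) (sub_nonneg.2 hcT)
  have b4 := mul_le_mul_of_nonneg_left (mul_le_mul_of_nonneg_right hS1 hx) (sub_nonneg.2 hcT)
  have b5 := mul_le_mul_of_nonneg_left (mul_le_mul_of_nonneg_right hG2 hu) hc.le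
  have b6 := mul_le_mul_of_nonneg_left (mul_le_mul_of_nonneg_right hS2 hx) hc.le
  have b7 := mul_le_mul_of_nonneg_left a2 hcT0.le
  have b8 := mul_le_mul_of_nonneg_left a3 hcT0.le
  have b9 := mul_le_mul_of_nonneg_left a4 hcT0.le
  have b10 := mul_le_mul_of_nonneg_left a5 hcT0.le
  have b11 := mul_le_mul_of_nonneg_left hT hcT0.le
  linarith

/-- Below the diagonal, the ratio at least one. -/
theorem below_high {p m k1 eM Wl Gp G0 SM xe l u w v x : ℝ} (hp : 0 ≤ p) (hxe : 0 < xe)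
    (he : 0 < eM) (hl : 0 ≤ l) (hG0 : 0 ≤ G0) (hG : G0 ≤ Gp) (he1 : 1 ≤ eM) (hSM : 0 ≤ SM)
    (hu : u ≤ k1 * l) (hu0 : 0 ≤ u) (huv : u = v - 1) (hv : v ≤ eM) (hw : 1 ≤ w)
    (hwv : v - 1 ≤ m * (w - 1) * (v / w)) (hm : 0 ≤ m)
    (hx : -x * ((p + 3) * xe) ≤ k1 * l)
    (hneg : 0 ≤ (p + 3) * xe * (Wl * eM - Gp * k1 * eM + G0 * k1) - SM * k1 * eM) :
    0 ≤ Wl * l + G0 * (m * (w - 1)) - Gp * u + SM * x := by
  have hv0 : 0 < v := by linarith
  have hmw : 0 ≤ m * (w - 1) := mul_nonneg hm (sub_nonneg.2 hw)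
  have h1 : u ≤ eM * (m * (w - 1)) := by
    rw [huv]
    refine hwv.trans ?_
    rw [mul_comm eM]
    exact mul_le_mul_of_nonneg_left ((div_le_self hv0.le hw).trans hv) hmw
  refine nonneg_of_mul_nonneg_right ?_ (mul_pos he (mul_pos (by linarith : 0 < p + 3) hxe))
  have h2 := mul_le_mul_of_nonneg_left h1
    (mul_nonneg hG0 (mul_nonneg (show 0 ≤ p + 3 by linarith) hxe.le))
  have h3 : (Gp * eM - G0) * u ≤ (Gp * eM - G0) * (k1 * l) := by
    refine mul_le_mul_of_nonneg_left hu ?_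
    have := mul_le_mul_of_nonneg_left he1 (hG0.trans hG)
    linarith
  have h4 := mul_le_mul_of_nonneg_left h3 (mul_nonneg (show 0 ≤ p + 3 by linarith) hxe.le)
  have h5 := mul_le_mul_of_nonneg_left hx (mul_nonneg hSM he.le)
  have h6 := mul_nonneg hl hneg
  linarith

/-- Below the diagonal, the ratio below one. -/
theorem below_low {p k1 eM Wl Gp G0 SM xe l B x : ℝ} (hp : 0 ≤ p) (hxe : 0 < xe)
    (hl : 0 ≤ l) (hk : 0 ≤ k1) (hG0 : 0 ≤ G0) (hG : G0 ≤ Gp) (he1 : 1 ≤ eM) (hSM : 0 ≤ SM)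
    (hB : 0 ≤ B) (hx : -x * ((p + 3) * xe) ≤ k1 * l)
    (hneg : 0 ≤ (p + 3) * xe * (Wl * eM - Gp * k1 * eM + G0 * k1) - SM * k1 * eM) :
    0 ≤ Wl * l + B + SM * x := by
  have he : 0 < eM := by linarith
  have hq : 0 < (p + 3) * xe := mul_pos (by linarith) hxe
  have h1 : G0 * k1 ≤ Gp * k1 * eM :=
    (mul_le_mul_of_nonneg_right hG hk).trans
      (le_mul_of_one_le_right (mul_nonneg (hG0.trans hG) hk) he1)
  refine nonneg_of_mul_nonneg_right ?_ (mul_pos he hq)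
  have h2 := mul_le_mul_of_nonneg_left h1 (mul_nonneg hq.le hl)
  have h5 := mul_le_mul_of_nonneg_left hx (mul_nonneg hSM he.le)
  have h6 := mul_nonneg hl hneg
  have h7 := mul_nonneg (mul_nonneg he.le hq.le) hB
  linarith

/-- Above the diagonal, the ratio at least one. -/
theorem above_high {p m th k2 Wl Gp G0 SP L l w v x : ℝ} (hp : 0 ≤ p) (hth : 0 ≤ th)
    (hth1 : th ≤ 1) (hSP : 0 ≤ SP) (hw : 0 < w) (hl : 0 ≤ l) (hlL : l ≤ L)
    (hcut : w * w - 1 - k2 * l ≤ 2 * x * (w * w))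
    (htail : v * (m * w * (w - 1) * (1 + 5 * w) - l * (w * w) * (4 + 2 * w)) ≤
      (p + 4) * x * (w * w * (4 + 2 * w)))
    (hA : 0 ≤ 2 * (p + 4) * (w * w) * (4 + 2 * w) * (G0 * m * (w - 1) - Gp * (v - 1)) +
      th * SP * (p + 4) * (4 + 2 * w) * (w * w - 1) +
      (1 - th) * SP * 2 * v * (m * w * (w - 1) * (1 + 5 * w)))
    (hB : 0 ≤ 2 * (p + 4) * (w * w) * (4 + 2 * w) *
        (L * Wl + G0 * m * (w - 1) - Gp * (v - 1)) +
      th * SP * (p + 4) * (4 + 2 * w) * (w * w - 1 - k2 * L) +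
      (1 - th) * SP * 2 * v * (m * w * (w - 1) * (1 + 5 * w) - L * (w * w) * (4 + 2 * w))) :
    0 ≤ Wl * l + G0 * (m * (w - 1)) - Gp * (v - 1) + SP * x := by
  have hpoly := affine_nonneg
    (B := 2 * (p + 4) * (w * w) * (4 + 2 * w) * Wl - th * SP * (p + 4) * (4 + 2 * w) * k2 -
      (1 - th) * SP * 2 * v * ((w * w) * (4 + 2 * w))) hA (by linarith) hl hlL
  have hK : 0 < 2 * (p + 4) * (w * w) * (4 + 2 * w) := by positivity
  refine nonneg_of_mul_nonneg_right ?_ hK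
  have h1 := mul_le_mul_of_nonneg_left hcut
    (show 0 ≤ th * SP * (p + 4) * (4 + 2 * w) by positivity)
  have h2 := mul_le_mul_of_nonneg_left htail
    (mul_nonneg (mul_nonneg (sub_nonneg.2 hth1) hSP) (show (0 : ℝ) ≤ 2 by norm_num))
  linarith

end Vale.Agent.P237.Petty.Cor.Grid.Tiny
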