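import Vale.Agent.P237.Petty.Cor.Grid.Tiny.End

/-!
# P237: a state near the end

The bounds of `x = (t - s) / arc s ^ 2` and of `v = 1 / r`, and the split of the cell.
-/

namespace Vale.Agent.P237.Petty.Cor.Grid.Tiny

open MeasureTheory Set Grid
open Lift (circLow circHigh)

variable {p : ℕ} {ell s t a r q x : ℝ}

/-- The displacement is at most the rest of the range. -/
theorem x_le_inv (h : FlatState p ell s t a r q) (hx : t - s = arc s ^ 2 * x) :
    x ≤ 1 / (1 + s) := by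
  have hs := h.state.s_mem
  have ht := h.state.t_mem
  have hz : 0 < 1 - s ^ 2 := one_sub_sq_pos hs.1.le hs.2
  rw [show arc s ^ 2 = 1 - s ^ 2 from Real.sq_sqrt hz.le] at hx
  rw [le_div_iff₀ (by linarith [hs.1])]
  refine le_of_mul_le_mul_left ?_ (sub_pos.2 hs.2)
  have e : (1 - s) * (x * (1 + s)) = t - s := by rw [hx]; ring
  linarith [ht.2]

/-- The displacement from below. -/
theorem neg_x_le (h : FlatState p ell s t a r q) (hx : t - s = arc s ^ 2 * x) (h0 : 0 ≤ ell)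
    {k1 S : ℝ} (hk0 : 0 ≤ k1) (hk : Real.exp ell ≤ 1 + k1 * ell) (hS : 0 < S) (hSs : S ≤ s) :
    -x * (((p : ℝ) + 3) * S) ≤ k1 * ell := by
  have hs := h.state.s_mem
  have hc := h.state.arc_pos'
  rcases le_total 0 x with cx | cx
  · nlinarith [mul_nonneg hk0 h0, mul_nonneg cx (mul_nonneg
      (show (0 : ℝ) ≤ (p : ℝ) + 3 by positivity) hS.le)]
  have hT : ((p : ℝ) + 3) * s * circHigh p s ≤ arc s ^ (p + 1) * arc s ^ 2 := by
    have := (circHigh_bounds (p := p) (Ioo_subset_Icc_self hs)).2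
    rw [show arc s ^ (p + 3) = arc s ^ (p + 1) * arc s ^ 2 from pow_add _ _ 2] at this
    linarith
  have hT0 : 0 ≤ circHigh p s :=
    intervalIntegral.integral_nonneg hs.2.le fun v _ => pow_nonneg (Real.sqrt_nonneg _) _
  have hs0 := hs.1
  have h4 : (s - t) * (((p : ℝ) + 3) * s) ≤ k1 * ell * arc s ^ 2 := by
    refine le_of_mul_le_mul_right ?_ (pow_pos hc (p + 1))
    have h5 := mul_le_mul_of_nonneg_right (h.disp_ge h0)
      (show 0 ≤ ((p : ℝ) + 3) * s by positivity)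
    have h6 := mul_le_mul (show Real.exp ell - 1 ≤ k1 * ell by linarith) hT (by positivity)
      (mul_nonneg hk0 h0)
    linarith
  have h7 : -x * (((p : ℝ) + 3) * s) ≤ k1 * ell := by
    refine le_of_mul_le_mul_right ?_ (sq_pos_of_pos hc)
    refine le_trans (le_of_eq ?_) h4
    linear_combination (((p : ℝ) + 3) * s) * hx
  refine le_trans (mul_le_mul_of_nonneg_left ?_ (neg_nonneg.2 cx)) h7
  exact mul_le_mul_of_nonneg_left hSs (by positivity)

/-- The mass above bounds the reciprocal of the rate from below. -/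
theorem v_ge (h : FlatState p ell s t a r q) (hx : t - s = arc s ^ 2 * x)
    (hs1 : ((p : ℝ) + 2) ≤ ((p : ℝ) + 3) * s) : 1 / (1 + s) - x ≤ 1 / r := by
  have hs := h.state.s_mem
  have hc := h.state.arc_pos'
  have hcp := pow_pos hc (p + 1)
  have hr := h.state.rate_pos
  have hv : 0 < 1 / r := one_div_pos.2 hr
  have hz : 0 < 1 - s ^ 2 := one_sub_sq_pos hs.1.le hs.2
  have hT := (circHigh_bounds (p := p) (Ioo_subset_Icc_self hs)).2
  rw [show arc s ^ (p + 3) = arc s ^ (p + 1) * arc s ^ 2 from pow_add _ _ 2] at hT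
  have hT0 : 0 ≤ circHigh p s :=
    intervalIntegral.integral_nonneg hs.2.le fun v _ => pow_nonneg (Real.sqrt_nonneg _) _
  have h3 := h.state.high
  rw [show a ^ (p + 1) = arc s ^ (p + 1) / (1 / r) by rw [h.state.rate_eq]; field_simp,
    div_mul_eq_mul_div, div_le_iff₀ hv] at h3
  have h4 := mul_le_mul_of_nonneg_right hs1 (show 0 ≤ circHigh p s * (1 / r) by positivity)
  have h5 := mul_le_mul_of_nonneg_right hT hv.le
  have h7 : 1 - t ≤ arc s ^ 2 * (1 / r) := le_of_mul_le_mul_left (by linarith) hcp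
  refine le_of_mul_le_mul_left ?_ (sq_pos_of_pos hc)
  refine le_trans (le_of_eq ?_) h7
  rw [mul_sub, ← hx, show arc s ^ 2 = 1 - s ^ 2 from Real.sq_sqrt hz.le]
  have : (1 : ℝ) + s ≠ 0 := by linarith [hs.1]
  field_simp
  ring

/-- The square bound from above. -/
theorem v_le (h : FlatState p ell s t a r q) (hx : t - s = arc s ^ 2 * x) (hx0 : 0 ≤ x) :
    1 / r * (1 + s) ≤ (p : ℝ) + 3 := by
  have hs := h.state.s_mem
  have hz : 0 < 1 - s ^ 2 := one_sub_sq_pos hs.1.le hs.2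
  have h3 := h.state.sq_le
  rw [div_eq_mul_one_div] at h3
  have h4 : 0 ≤ t - s := hx ▸ mul_nonneg (sq_nonneg _) hx0
  refine le_of_mul_le_mul_right ?_ (sub_pos.2 hs.2)
  have h5 := mul_le_mul_of_nonneg_left (show 1 - t ≤ 1 - s by linarith)
    (show (0 : ℝ) ≤ (p : ℝ) + 3 by positivity)
  linarith

/-- The cut bounds the displacement from below. -/
theorem x_ge_cut (h : FlatState p ell s t a r q) (hx : t - s = arc s ^ 2 * x) (hx0 : 0 ≤ x)
    {w k2 : ℝ} (hw : w = arc s / a) (hk : Real.exp (2 / ((p : ℝ) + 1) * ell) ≤ 1 + k2 * ell) :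
    w * w - 1 - k2 * ell ≤ 2 * x * (w * w) := by
  have hs := h.state.s_mem
  have ht := h.state.t_mem
  have ha := h.state.pos
  have hc := h.state.arc_pos'
  have hz : 0 < 1 - s ^ 2 := one_sub_sq_pos hs.1.le hs.2
  have h3 : arc t ≤ Real.exp (ell / ((p : ℝ) + 1)) * a := by
    refine (pow_le_pow_iff_left₀ (Real.sqrt_nonneg _) (by positivity)
      (Nat.succ_ne_zero p)).1 (h.cut.trans (le_of_eq ?_))
    rw [mul_pow, ← Real.exp_nat_mul]
    push_cast
    field_simp
  have h4 := pow_le_pow_left₀ (Real.sqrt_nonneg _) h3 2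
  have hct : 0 ≤ 1 - t ^ 2 := by nlinarith [ht.1, ht.2]
  simp only [arc, Real.sq_sqrt hct] at h4
  rw [mul_pow, ← Real.exp_nat_mul] at h4
  push_cast at h4
  rw [show 2 * (ell / ((p : ℝ) + 1)) = 2 / ((p : ℝ) + 1) * ell by ring] at h4
  have h5 := h4.trans (mul_le_mul_of_nonneg_right hk (sq_nonneg a))
  have ea : a ^ 2 * (w * w) = arc s ^ 2 := by rw [hw]; field_simp
  have h6 := mul_le_mul_of_nonneg_right h5 (mul_self_nonneg w)
  rw [mul_assoc, ea] at h6
  have hd0 : 0 ≤ t - s := hx ▸ mul_nonneg (sq_nonneg _) hx0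
  have h7 : (t - s) * (t + s) ≤ (t - s) * 2 :=
    mul_le_mul_of_nonneg_left (by linarith [ht.2, hs.2]) hd0
  have h8 := mul_le_mul_of_nonneg_right h7 (mul_self_nonneg w)
  refine le_of_mul_le_mul_left ?_ (sq_pos_of_pos hc)
  rw [show arc s ^ 2 = 1 - s ^ 2 from Real.sq_sqrt hz.le] at hx h6 ⊢
  have h9 : (t - s) * 2 * (w * w) = (1 - s ^ 2) * (2 * x * (w * w)) := by
    linear_combination (2 * (w * w)) * hx
  linarith

/-- The tail chord at the abscissa of the circle bounds the displacement from below. -/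
theorem x_ge_tail (h : FlatState p ell s t a r q) (hx : t - s = arc s ^ 2 * x) (hx0 : 0 ≤ x)
    {w : ℝ} (hw : 0 < w) (hwv : w ^ (p + 1) = 1 / r)
    (hs1 : ((p : ℝ) + 2) ≤ ((p : ℝ) + 3) * s) :
    1 / r * (((p : ℝ) + 1) * w * (w - 1) * (1 + 5 * w) - ell * (w * w) * (4 + 2 * w)) ≤
      ((p : ℝ) + 4) * x * (w * w * (4 + 2 * w)) := by
  have hs := h.state.s_mem
  have hv : 0 < 1 / r := one_div_pos.2 h.state.rate_pos
  have hp4 : (0 : ℝ) < (p : ℝ) + 4 := by positivity
  have hz : 0 < 1 - s ^ 2 := one_sub_sq_pos hs.1.le hs.2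
  have h3 : 1 / r * (Real.log (1 / r) - ell) ≤ ((p : ℝ) + 4) * x := by
    rcases le_or_gt (Real.log (1 / r) - ell) 0 with c4 | c4
    · exact (mul_nonpos_of_nonneg_of_nonpos hv.le c4).trans (mul_nonneg hp4.le hx0)
    have hts : s < t := by
      by_contra hn
      have h6 := Real.log_le_log hv (inv_rate_le_diag h (not_lt.1 hn))
      rw [Real.log_exp] at h6
      linarith
    have h5 := Cor.Tiny.tail_fact h (u := s) (L := 0) ⟨hs.1.le, hts⟩ rfl (sub_self _).ge
    rw [zero_add, hx, show arc s ^ 2 = 1 - s ^ 2 from Real.sq_sqrt hz.le] at h5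
    refine h5.trans (le_trans (le_of_eq ?_) (mul_le_mul_of_nonneg_right
      (show (((p : ℝ) + 3) * s ^ 2 + 1) / s ≤ (p : ℝ) + 4 by
        rw [div_le_iff₀ hs.1]
        have c : 1 ≤ ((p : ℝ) + 3) * s := by
          linarith [Nat.cast_nonneg (α := ℝ) p]
        nlinarith [mul_nonneg (sub_nonneg.2 hs.2.le) (sub_nonneg.2 c)]) hx0))
    field_simp
  have hl : Real.log (1 / r) = ((p : ℝ) + 1) * Real.log w := by
    rw [← hwv, Real.log_pow]; push_cast; ring
  have h4 := mul_le_mul_of_nonneg_left (Cor.pade_le_log hw)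
    (show 0 ≤ 1 / r * ((p : ℝ) + 1) * (w * w * (4 + 2 * w)) by positivity)
  have e1 : 1 / r * ((p : ℝ) + 1) * (w * w * (4 + 2 * w)) *
      ((w - 1) * (1 + 5 * w) / (w * (4 + 2 * w))) =
      1 / r * ((p : ℝ) + 1) * w * (w - 1) * (1 + 5 * w) := by field_simp
  have e2 : 1 / r * ((p : ℝ) + 1) * (w * w * (4 + 2 * w)) * Real.log w =
      1 / r * Real.log (1 / r) * (w * w * (4 + 2 * w)) := by rw [hl]; ring
  rw [e1, e2] at h4
  have h6 := mul_le_mul_of_nonneg_right h3 (show 0 ≤ w * w * (4 + 2 * w) by positivity)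
  linarith

variable {P : ParT}

/-- The split of the cell near the end. -/
theorem end_split (h : FlatState P.D.p ell s t a r q) (hx : t - s = arc s ^ 2 * x) :
    arc s * P.cell ell s t a r = arc s * (ell * wS P.D.p (arc s)) +
      P.D.gz * ((P.D.p : ℝ) + 1) * (arc s / a - 1) +
      (arc s * evE P.D.K s - P.pot.gz) * (1 / r - 1) +
      (arc s ^ 3 * dE P.D.K s - P.pot.gz * s -
        ((P.D.p : ℝ) + 1) * s * (arc s * evE P.D.K s - P.pot.gz) -
        arc s ^ 3 * s * P.pot.c0) * x +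
      ((arc s ^ 3 * ((P.pot.sb' s * s - P.pot.sb s) / s ^ 2 -
          P.D.nu * ((P.D.p : ℝ) + 4) * P.D.g ^ 2) -
        arc s * (((P.D.p : ℝ) + 1) * P.pot.sb s)) * ((t - s) ^ 2 / arc s ^ 2) +
      arc s * (2 * (P.pot.sb s / s)) * ((1 / r - 1) * (t - s)) +
      arc s * ((2 * P.D.nu * P.D.g * (1 + P.D.g) * (t - s) ^ 2 +
        2 * P.D.nu * (1 + P.D.g) * arc s ^ 2 * (1 / r - 1) ^ 2 -
        2 * P.D.nu * s * (P.D.g ^ 2 - 1) * (1 / r - 1) * (t - s)) / (1 / r))) := by
  have hc := h.state.arc_pos'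
  have e : (t - s) / arc s ^ 2 = x := by rw [hx]; field_simp
  have e1 : arc s * (((P.D.p : ℝ) + 1) * P.ez * (1 / a - 1 / arc s)) =
      ((P.D.p : ℝ) + 1) * P.ez * (arc s / a - 1) := by field_simp
  have e2 : arc s * (((P.D.p : ℝ) + 1) * P.pot.gz * (1 / a - 1 / arc s)) =
      ((P.D.p : ℝ) + 1) * P.pot.gz * (arc s / a - 1) := by field_simp
  rw [P.cell_eq h, mul_sub, tail_split (D := P.pot) h, e]
  simp only [show P.pot.p = P.D.p from rfl, show P.pot.K = P.D.K from rfl,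
    show P.pot.nu = P.D.nu from rfl, show P.pot.g = P.D.g from rfl]
  rw [e1, e2, P.pot_gz]
  ring

end Vale.Agent.P237.Petty.Cor.Grid.Tiny
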