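import Vale.Agent.P237.Petty.Cor.Grid.Fast

/-!
# P237: the leaves of a cell that reaches down to the value zero

Near the diagonal the leaves use two further constraints: the chord from the abscissa of the circle
bounds the displacement by a multiple of the value, and the tail chord there bounds it from below
through a lower bound of `v log v`. Both vanish exactly at the degenerate corner.
-/

namespace Vale.Agent.P237.Petty.Cor.Grid.Tiny

open Grid

/-- A piece of the range of `v`, with a flag for a valid ratio and a lower bound of `v log v`. -/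
structure PieceT where
  /-- the piece -/
  P : Piece
  /-- whether the ratio is valid -/
  rtOk : Bool
  /-- `v log v`, from below -/
  tl : Q2

/-- The constants, with an upper bound of `exp (ell / 2)` on the whole range of values. -/
structure CstT where
  /-- the constants -/
  k : Cst
  /-- `exp (ell / 2)` from above -/
  hR : ℕ

/-- The multipliers of a leaf. -/
structure MultT where
  /-- the common multipliers -/
  μ : Mult
  /-- the tail chord -/
  tl : ℕ
  /-- the chord at the abscissa of the circle -/
  up : ℕ

/-- The tail chord at the abscissa of the circle, scale two. -/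
def gTail (c : Cst) (P : PieceT) (C : Coords) : PV :=
  ((((((C.lS.mul C.lS).smul ((c.m : ℤ) + 2)).add (C.oS.mul C.oS)).mul (C.oD.mul C.lD)).mul
    (((C.oV.mul C.oV).mul C.oV).mul C.oL)).smul (scl * scl)).add
  (((C.cS.mul (C.oD.mul C.oD)).mul
    ((((P.tl.pv C.oV C.lV).mul C.oV).mul C.oL).add
      ((((C.lV.mul C.oV).mul C.oV).mul C.lL).smul (-scl)))).smul (-scl))

/-- The chord at the abscissa of the circle, scale two. -/
def gUp (c : CstT) (R : Row) (C : Coords) : PV :=
  (((((R.loU.pv C.oS C.lS).mul (C.oD.mul C.oD)).mul
    (((C.oV.add C.lV).mul C.oV).mul C.oV)).mul C.lL).smul (c.hR : ℤ)).add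
  ((((C.oS.mul C.lS).mul (C.oD.mul C.lD)).mul
    (((C.oV.mul C.oV).mul C.oV).mul C.oL)).smul (-2 * (scl * scl)))

/-- Subtract all multiples, scale five. -/
def combT (c : CstT) (R : Row) (P : PieceT) (μ : MultT) (C : Coords) (g0 : PV) : PV :=
  sub0 (sub0 (comb c.k R P.P μ.μ C g0) μ.tl (scl * scl) (gTail c.k P C))
    μ.up (scl * scl) (gUp c R C)

/-- A leaf where the cell is above the remainder. -/
def posT (c : CstT) (R : Row) (P : PieceT) (σ : Sgn) (μ : MultT) (B : Box) : Bool :=
  decide (P.P.lo ≤ B.v0) && decide (B.v1 ≤ P.P.hi) && σ.fits B &&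
    (μ.tl == 0 || decide (0 ≤ B.d0)) &&
    signTest (combT c R P μ B.coords
      ((goal c.k R P.P (R.lam σ) (R.sig σ) (R.mix σ) B.coords).smul (scl * scl * scl)))

/-- A leaf without states. -/
def voidT (c : CstT) (R : Row) (P : PieceT) (μ : MultT) (B : Box) : Bool :=
  decide (P.P.lo ≤ B.v0) && decide (B.v1 ≤ P.P.hi) && (μ.tl == 0 || decide (0 ≤ B.d0)) &&
    signTest (combT c R P μ B.coords (negOne B.coords))

end Vale.Agent.P237.Petty.Cor.Grid.Tiny
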