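import Vale.Agent.P237.Petty.Cor.Grid.Sound
import Vale.Agent.P237.Petty.Cor.Grid.Tiny.Leaf

/-!
# P237: what a leaf of a tiny cell proves
-/

namespace Vale.Agent.P237.Petty.Cor.Grid.Tiny

open Grid

/-- The tail chord. -/
noncomputable def tailV (k : Cst) (P : PieceT) (z : Pnt) : ℝ :=
  z.d * (((k.m : ℝ) + 2) * z.s ^ 2 + 1) - (1 - z.s ^ 2) * (P.tl.ev z.v - z.v * z.l)

/-- The chord at the abscissa of the circle. -/
noncomputable def upV (k : CstT) (R : Row) (z : Pnt) : ℝ :=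
  (k.hR : ℝ) / sR * (z.l * R.loU.ev z.s * (1 + z.v)) - 2 * (z.s * z.d)

/-- The constraints that a leaf uses. -/
structure HoldsT (k : CstT) (R : Row) (P : PieceT) (μ : MultT) (z : Pnt) : Prop where
  base : Holds k.k R P.P μ.μ z
  tl : μ.tl ≠ 0 → 0 ≤ tailV k.k P z
  up : μ.up ≠ 0 → 0 ≤ upV k R z

variable {s t : ℕ → ℝ} {C : Coords} {z : Pnt}

theorem At.gTail (h : At s t C z) (k : Cst) (P : PieceT) :
    Rep s t (q4 2 2 3 1) (gTail k P C) (sR ^ 10 * tailV k P z) :=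
  (((((((h.lS.mul h.lS).smul ((k.m : ℤ) + 2)).add (h.oS.mul h.oS)).mul (h.oD.mul h.lD)).mul
    (((h.oV.mul h.oV).mul h.oV).mul h.oL)).smul (scl * scl)).add
  (((h.cS.mul (h.oD.mul h.oD)).mul
    ((((h.qV P.tl).mul h.oV).mul h.oL).add
      ((((h.lV.mul h.oV).mul h.oV).mul h.lL).smul (-scl)))).smul (-scl))).congr
    (by simp only [tailV, scl, sR]; push_cast; ring)

theorem At.gUp (h : At s t C z) (k : CstT) (R : Row) :
    Rep s t (q4 2 2 3 1) (gUp k R C) (sR ^ 10 * upV k R z) :=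
  ((((((h.qS R.loU).mul (h.oD.mul h.oD)).mul
    (((h.oV.add h.lV).mul h.oV).mul h.oV)).mul h.lL).smul (k.hR : ℤ)).add
  ((((h.oS.mul h.lS).mul (h.oD.mul h.lD)).mul
    (((h.oV.mul h.oV).mul h.oV).mul h.oL)).smul (-2 * (scl * scl)))).congr
    (by simp only [upV, scl, sR]; push_cast; ring)

/-- A leaf that passes has a nonnegative start where its constraints hold. -/
theorem combT_sound {k : CstT} {R : Row} {P : PieceT} {μ : MultT} {g0 : PV} {G0 : ℝ}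
    (h : At s t C z) (hg : Rep s t (q4 2 2 3 1) g0 G0) (hz : HoldsT k R P μ z)
    (hst : ∀ i < 4, 0 ≤ s i ∧ 0 ≤ t i ∧ s i + t i = 1)
    (hs : signTest (combT k R P μ C g0) = true) : 0 ≤ G0 := by
  have e1 : ((scl : ℤ) : ℝ) = sR := by simp [scl, sR]
  have e2 : ((scl * scl : ℤ) : ℝ) = sR * sR := by rw [Int.cast_mul, e1]
  have e3 : ((scl * scl * scl : ℤ) : ℝ) = sR * sR * sR := by rw [Int.cast_mul, Int.cast_mul, e1]
  have hb := (((((((((hg.sub0 (h.gCut k.k P.P) e1 μ.μ.cut).sub0 (h.gRect R) e3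
    μ.μ.rect).sub0 (h.gHigh k.k R) e3 μ.μ.high).sub0 (h.gSq k.k) e3 μ.μ.sq).sub0 (h.gLow R) e3
    μ.μ.low).sub0 (h.gDisp k.k R) e2 μ.μ.disp).sub0 (h.gHaz k.k R) e2 μ.μ.haz).sub0
    (h.gPin k.k R μ.μ.line) e2 μ.μ.pin).sub0 (h.gGeo k.k R μ.μ.tan) (K := 1) Int.cast_one μ.μ.geo)
  have hF := signTest_sound hs hst (((hb.sub0 (At.gTail h k.k P) e2 μ.tl).sub0 (At.gUp h k R) e2
    μ.up) |>.congr rfl |> fun r =>
      Vale.Agent.P100.Bernstein.Good.congr r (fun i hi => by interval_cases i <;> rfl) le_rfl rfl rfl)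
  have w : ∀ (μ : ℕ) (K g : ℝ), 0 ≤ K → (μ ≠ 0 → 0 ≤ g) → 0 ≤ (μ : ℝ) * K * g := by
    intro μ K g hK hg'
    rcases eq_or_ne μ 0 with rfl | hm
    · simp
    · exact mul_nonneg (mul_nonneg (by positivity) hK) (hg' hm)
  have p : ∀ (j : ℕ) (g : ℝ), 0 ≤ g → 0 ≤ sR ^ j * g := fun j g hg' => by positivity
  have z0 := hz.base
  linarith [w μ.μ.cut sR _ (by norm_num) fun hm => p 11 _ (z0.cut hm),
    w μ.μ.rect (sR * sR * sR) _ (by norm_num) fun hm => p 9 _ (z0.rect hm),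
    w μ.μ.high (sR * sR * sR) _ (by norm_num) fun hm => p 9 _ (z0.high hm),
    w μ.μ.sq (sR * sR * sR) _ (by norm_num) fun hm => p 9 _ (z0.sq hm),
    w μ.μ.low (sR * sR * sR) _ (by norm_num) fun hm => p 9 _ (z0.low hm),
    w μ.μ.disp (sR * sR) _ (by norm_num) fun hm => p 10 _ (z0.disp hm),
    w μ.μ.haz (sR * sR) _ (by norm_num) fun hm => p 10 _ (z0.haz hm),
    w μ.μ.pin (sR * sR) _ (by norm_num) fun hm => p 10 _ (z0.pin hm),
    w μ.μ.geo 1 _ zero_le_one fun hm => p 12 _ (z0.geo hm),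
    w μ.tl (sR * sR) _ (by norm_num) fun hm => p 10 _ (hz.tl hm),
    w μ.up (sR * sR) _ (by norm_num) fun hm => p 10 _ (hz.up hm)]

theorem tl_fit {μ : ℕ} {B : Box} (h : (μ == 0 || decide (0 ≤ B.d0)) = true) (hb : InB B z)
    (hm : μ ≠ 0) : 0 ≤ z.d := by
  simp only [Bool.or_eq_true, beq_iff_eq, decide_eq_true_eq] at h
  have h0 : (0 : ℝ) ≤ B.d0 := by exact_mod_cast h.resolve_left hm
  exact nonneg_of_mul_nonneg_right (h0.trans hb.d0) (by norm_num)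

theorem posT_sound {k : CstT} {R : Row} {P : PieceT} {σ : Sgn} {μ : MultT} {B : Box}
    (h : posT k R P σ μ B = true) (hb : InB B z) :
    P.P.Has z.v ∧ σ.Of z ∧ (μ.tl ≠ 0 → 0 ≤ z.d) ∧
      (HoldsT k R P μ z → 0 ≤ goalV k.k R P.P (R.lam σ) (R.sig σ) (R.mix σ) z) := by
  simp only [posT, Bool.and_eq_true, decide_eq_true_eq] at h
  obtain ⟨⟨⟨⟨hlo, hhi⟩, hf⟩, ht⟩, hs⟩ := h
  have hl : (P.P.lo : ℝ) ≤ B.v0 := by exact_mod_cast hlo
  have hh : (B.v1 : ℝ) ≤ P.P.hi := by exact_mod_cast hhi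
  refine ⟨⟨hl.trans hb.v0, hb.v1.trans hh⟩, ?_, tl_fit ht hb, fun hz => ?_⟩
  · cases σ <;> simp only [Sgn.fits, Bool.and_eq_true, decide_eq_true_eq, scl] at hf <;>
      obtain ⟨f1, f2⟩ := hf <;>
      have g1 := (Int.cast_le (R := ℝ)).2 f1 <;> have g2 := (Int.cast_le (R := ℝ)).2 f2 <;>
      push_cast at g1 g2 <;> refine ⟨?_, ?_⟩ <;>
      nlinarith [hb.d0, hb.d1, hb.v0, hb.v1, g1, g2]
  · obtain ⟨a, b, hst, ha⟩ := at_box hb
    have := combT_sound ha ((ha.goal k.k R P.P (R.lam σ) (R.sig σ) (R.mix σ)).smul _) hz hst hs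
    have h3 : ((scl * scl * scl : ℤ) : ℝ) = sR * sR * sR := by
      simp only [scl, sR]; norm_num
    rw [h3, ← mul_assoc] at this
    exact nonneg_of_mul_nonneg_right (by linarith)
      (by positivity : (0 : ℝ) < sR * sR * sR * sR ^ 10)

theorem voidT_sound {k : CstT} {R : Row} {P : PieceT} {μ : MultT} {B : Box}
    (h : voidT k R P μ B = true) (hb : InB B z) :
    P.P.Has z.v ∧ (μ.tl ≠ 0 → 0 ≤ z.d) ∧ (HoldsT k R P μ z → False) := by
  simp only [voidT, Bool.and_eq_true, decide_eq_true_eq] at h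
  obtain ⟨⟨⟨hlo, hhi⟩, ht⟩, hs⟩ := h
  have hl : (P.P.lo : ℝ) ≤ B.v0 := by exact_mod_cast hlo
  have hh : (B.v1 : ℝ) ≤ P.P.hi := by exact_mod_cast hhi
  refine ⟨⟨hl.trans hb.v0, hb.v1.trans hh⟩, tl_fit ht hb, fun hz => ?_⟩
  obtain ⟨a, b, hst, ha⟩ := at_box hb
  have := combT_sound ha ha.negOne hz hst hs
  have : (0 : ℝ) < sR ^ 8 := by positivity
  linarith

end Vale.Agent.P237.Petty.Cor.Grid.Tiny
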