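import Vale.Agent.P237.Petty.Cor.Grid.Tree
import Vale.Agent.P237.Petty.Cor.Grid.Consts
import Vale.Agent.P237.Petty.Cor.Grid.Tiny.Sound

/-!
# P237: a subdivision of a row of a tiny cell
-/

namespace Vale.Agent.P237.Petty.Cor.Grid.Tiny

open Grid Set

/-- A subdivision with multipliers at the leaves. -/
inductive TreeT where
  | cut (a : Axis) (c : ℤ) (lo hi : TreeT)
  | pos (i : ℕ) (σ : Sgn) (μ : MultT) (x y : ℕ)
  | void (i : ℕ) (μ : MultT) (x y : ℕ)

/-- The data shared by the leaves of a row. -/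
structure CtxT where
  /-- the constants -/
  c : CstT
  /-- the enclosures -/
  R : Row
  /-- the pieces -/
  pieces : List PieceT
  /-- the nodes and lower values -/
  grid : List (ℤ × ℤ)

/-- The part of the context that the common facts use. -/
def CtxT.base (K : CtxT) : Ctx := ⟨K.c.k, K.R, K.pieces.map fun P => (P.P, P.rtOk), K.grid⟩

/-- A piece that is not valid. -/
def noPieceT : PieceT := ⟨(noPiece).1, false, ⟨0, 0, 0⟩⟩

/-- The check of a subdivision. -/
def CtxT.chk (K : CtxT) : TreeT → Box → Bool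
  | .cut a c lo hi, B => K.chk lo (B.halves a c).1 && K.chk hi (B.halves a c).2
  | .pos i σ μ x y, B =>
      K.base.fitTest i μ.μ x y B && posT K.c K.R (K.pieces.getD i noPieceT) σ μ B
  | .void i μ x y, B =>
      K.base.fitTest i μ.μ x y B && voidT K.c K.R (K.pieces.getD i noPieceT) μ B

/-- The piece and its lower bound of `v log v` are valid. -/
def PieceT.Valid (m : ℕ) (P : PieceT) : Prop :=
  Piece.Valid m (P.P, P.rtOk) ∧ ∀ v : ℝ, P.P.Has v → 0 < v → P.tl.ev v ≤ v * Real.log v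

/-- What the leaves use at a point. -/
structure FactsT (k : CstT) (R : Row) (F : ℝ → ℝ) (z : Pnt) (X : ℝ) : Prop where
  base : Facts k.k R F z X
  up : 0 ≤ upV k R z
  tail : ∀ P : PieceT, P.tl.ev z.v ≤ z.v * Real.log z.v → 0 ≤ z.d → 0 ≤ tailV k.k P z

variable {K : CtxT} {F : ℝ → ℝ} {z : Pnt} {X : ℝ}

theorem getD_base {i : ℕ} (hi : i < K.pieces.length) :
    K.base.pieces.getD i noPiece =
      ((K.pieces.getD i noPieceT).P, (K.pieces.getD i noPieceT).rtOk) := by
  simp only [CtxT.base]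
  rw [List.getD_eq_getElem _ _ (by simpa using hi), List.getD_eq_getElem _ _ hi, List.getElem_map]

theorem holdsT_of_facts (hp : ∀ P ∈ K.pieces, PieceT.Valid K.c.k.m P)
    (hF : ConcaveOn ℝ (Icc (0 : ℝ) 1) F) (hG : GridBelow F K.grid)
    (h : FactsT K.c K.R F z X) {B : Box} (hb : InB B z) {i x y : ℕ} {μ : MultT}
    (hf : K.base.fitTest i μ.μ x y B = true) (hv : (K.pieces.getD i noPieceT).P.Has z.v)
    (hd : μ.tl ≠ 0 → 0 ≤ z.d) :
    HoldsT K.c K.R (K.pieces.getD i noPieceT) μ z ∧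
      ∀ w : ℝ, 0 ≤ w → w ^ K.c.k.m = z.v →
        (K.pieces.getD i noPieceT).P.sh.ev z.v ≤ (K.c.k.m : ℝ) * (w - 1) := by
  have hi : i < K.pieces.length := by
    simp only [Ctx.fitTest, Bool.and_eq_true, decide_eq_true_eq] at hf
    simpa [CtxT.base] using hf.1.1
  have hb' := Grid.holds_of_facts (K := K.base) (F := F) (X := X) (fun P hP => ?_) hF hG h.base hb
    hf (by rw [getD_base hi]; exact hv)
  · rw [getD_base hi] at hb'
    refine ⟨⟨hb'.1, fun hm => ?_, fun _ => h.up⟩, hb'.2⟩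
    have hmem : K.pieces.getD i noPieceT ∈ K.pieces := by
      rw [List.getD_eq_getElem _ _ hi]
      exact List.getElem_mem hi
    exact h.tail _ ((hp _ hmem).2 z.v hv h.base.v_pos) (hd hm)
  · simp only [CtxT.base, List.mem_map] at hP
    obtain ⟨P', hP', rfl⟩ := hP
    exact (hp P' hP').1

/-- A subdivision that passes gives the sign at every point of its box. -/
theorem chk_sound (hp : ∀ P ∈ K.pieces, PieceT.Valid K.c.k.m P)
    (hF : ConcaveOn ℝ (Icc (0 : ℝ) 1) F) (hG : GridBelow F K.grid) :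
    ∀ (T : TreeT) (B : Box), K.chk T B = true → InB B z → FactsT K.c K.R F z X → 0 ≤ X
  | .cut a c lo hi, B, h, hb, hf => by
    simp only [CtxT.chk, Bool.and_eq_true] at h
    exact (Grid.inB_halves hb a c).elim (fun g => chk_sound hp hF hG lo _ h.1 g hf)
      fun g => chk_sound hp hF hG hi _ h.2 g hf
  | .pos i σ μ x y, B, h, hb, hf => by
    simp only [CtxT.chk, Bool.and_eq_true] at h
    obtain ⟨hv, hσ, hd, hG'⟩ := posT_sound h.2 hb
    obtain ⟨hh, hsh⟩ := holdsT_of_facts hp hF hG hf hb h.1 hv hd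
    exact (hG' hh).trans (hf.base.goal σ _ hσ hsh)
  | .void i μ x y, B, h, hb, hf => by
    simp only [CtxT.chk, Bool.and_eq_true] at h
    obtain ⟨hv, hd, hF'⟩ := voidT_sound h.2 hb
    exact (hF' (holdsT_of_facts hp hF hG hf hb h.1 hv hd).1).elim

/-- The check of a piece. -/
def pieceTOk (m : ℕ) (P : PieceT) : Bool :=
  pieceOk m (P.P, P.rtOk) && decide (0 ≤ P.P.lo) &&
    nonneg1 (.sub (.mul (.sub (.var 0) (.num 1)) (.add (.num 1) (.mul (.num 5) (.var 0))))
      (.mul P.tl.expr (.add (.num 4) (.mul (.num 2) (.var 0))))) P.P.lo P.P.hi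

theorem pieceTOk_sound {m : ℕ} {P : PieceT} (h : pieceTOk m P = true) : PieceT.Valid m P := by
  simp only [pieceTOk, Bool.and_eq_true, decide_eq_true_eq] at h
  obtain ⟨⟨h1, -⟩, h2⟩ := h
  refine ⟨pieceOk_sound h1, fun v hv hv0 => ?_⟩
  have n := nonneg1_sound h2 hv.1 hv.2
  simp only [Vale.Agent.P100.Bernstein.Expr.eval, Q2.eval_expr, List.getD_cons_zero] at n
  push_cast at n
  have hl := mul_le_mul_of_nonneg_left (Cor.pade_le_log hv0) hv0.le
  refine le_trans ?_ hl
  rw [← mul_div_assoc, mul_div_mul_left _ _ hv0.ne', le_div_iff₀ (by positivity)]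
  linarith

end Vale.Agent.P237.Petty.Cor.Grid.Tiny
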