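import Vale.Agent.P237.Petty.Cor.Grid.State
import Vale.Agent.P237.Petty.Cor.Grid.Tiny.Tree

/-!
# P237: the parameters and enclosures of a tiny cell

The first potential has the singular coefficient `G0 + E0`, the shadow keeps `G0`; so the
coefficient of `u` is the even polynomial less `E0 / arc s`. Everything else is read from the
parameters with `G0 + E0`.
-/

namespace Vale.Agent.P237.Petty.Cor.Grid.Tiny

open Grid
open Vale.Agent.P100.Bernstein (Expr)

/-- The parameters. -/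
structure ParT where
  /-- the common parameters -/
  D : Par
  /-- the excess of the singular coefficient of the potential over the shadow -/
  E0 : ℤ

namespace ParT

variable (P : ParT)

/-- The parameters of the potentials. -/
def pot : Par := { P.D with G0 := P.D.G0 + P.E0 }

/-- `E0`. -/
noncomputable def ez : ℝ := (P.E0 : ℝ) / sR

theorem pot_gz : P.pot.gz = P.D.gz + P.ez := by
  simp only [pot, Par.gz, ez]
  push_cast
  ring

/-- The cancelled cell of the parameters. -/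
noncomputable def cell (ell s t a r : ℝ) : ℝ :=
  cancelExpr P.D.p P.D.gam P.D.nu ell (fun s t => s + P.D.g * (s - t)) (fun _ _ => 1 + P.D.g)
    (fun _ _ => -P.D.g) (quadPot P.pot.kF P.pot.bF)
    (quadPotS P.pot.kF P.pot.kF' P.pot.bF P.pot.bF') (quadPotT P.pot.kF P.pot.bF) s t a r

/-- The cell differs from the one of its potentials only in the shadow. -/
theorem cell_eq {top ell s t a r q : ℝ} (h : FlatState P.D.p top s t a r q) :
    P.cell ell s t a r =
      P.pot.cell ell s t a r - ((P.D.p : ℝ) + 1) * P.ez * (1 / a - 1 / arc s) := by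
  have hr := h.state.rate_pos.ne'
  have hp : P.pot.p = P.D.p := rfl
  have hn : P.pot.nu = P.D.nu := rfl
  have hg : P.pot.g = P.D.g := rfl
  simp only [cell, Par.cell, cancelExpr, hp, hn, hg]
  have e1 : P.pot.gam * Ident.b0 P.D.p = ((P.D.p : ℝ) + 1) * (P.D.gz + P.ez) := by
    rw [← P.pot_gz, ← hp]; exact gam_mul P.pot
  have e2 := gam_mul P.D
  linear_combination (1 / a - 1 / arc s) * e2 - (1 / a - 1 / arc s) * e1

end ParT

/-- A row: its data, the enclosures of the polynomial of the potential, and an upper bound of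
`(G0 + E0) / arc s`. -/
structure RowT where
  /-- the data -/
  Q : RowD
  /-- the polynomial, from below -/
  kl : Q2
  /-- the polynomial, from above -/
  ku : Q2
  /-- the singular part of the potential, from above -/
  shS : Q2

/-- The row of the potentials. -/
def RowT.potRow (e : RowT) : RowD :=
  { e.Q with R := { e.Q.R with lamL := e.kl, lamU := e.ku, shR := e.shS } }

/-- The check of the coefficients of a row. -/
def coefT (P : ParT) (e : RowT) : Bool :=
  P.pot.coefOk e.potRow && decide (0 ≤ P.D.G0) && decide (0 ≤ P.E0) &&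
  nonneg1 (.sub (.sub e.kl.expr (.mul (cE P.E0) e.Q.ru.expr)) e.Q.R.lamL.expr) e.Q.s0 e.Q.s1 &&
  nonneg1 (.sub e.Q.R.lamU.expr (.sub e.ku.expr (.mul (cE P.E0) e.Q.rl.expr))) e.Q.s0 e.Q.s1 &&
  nonneg1 (.sub e.Q.R.shR.expr (.mul (cE P.D.G0) e.Q.ru.expr)) e.Q.s0 e.Q.s1

/-- What a row bounds at an abscissa. -/
structure RowAtT (P : ParT) (e : RowT) (s : ℝ) : Prop where
  pot : RowAt P.pot e.potRow.R s
  lamL : e.Q.R.lamL.ev s ≤ evE P.D.K s - P.ez / arc s
  lamU : evE P.D.K s - P.ez / arc s ≤ e.Q.R.lamU.ev s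
  shR : P.D.gz / arc s ≤ e.Q.R.shR.ev s

theorem rowAtT {P : ParT} (hD : P.pot.Bracket) {T : List Slab}
    (hT : ∀ σ ∈ T, σ.Valid P.D.p) {e : RowT} (hc : coefT P e = true)
    (hm : P.pot.massOk T e.potRow = true) {s : ℝ} (h1 : (e.Q.s0 : ℝ) ≤ sR * s)
    (h2 : sR * s ≤ e.Q.s1) (hs : 0 < s) (hs1 : s < 1) : RowAtT P e s := by
  simp only [coefT, Bool.and_eq_true, decide_eq_true_eq] at hc
  obtain ⟨⟨⟨⟨⟨hco, hG⟩, hE⟩, el⟩, el'⟩, esh⟩ := hc
  have hR : RowAt P.pot e.potRow.R s := Grid.rowAt hD hT hco hm h1 h2 hs hs1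
  have hco' := hco
  simp only [Par.coefOk, Bool.and_eq_true, decide_eq_true_eq] at hco'
  obtain ⟨⟨⟨⟨⟨⟨⟨⟨⟨⟨⟨⟨⟨⟨⟨-, -⟩, -⟩, -⟩, er⟩, eu0⟩, eu⟩, -⟩, -⟩, -⟩, -⟩, -⟩, -⟩, -⟩, -⟩, -⟩ := hco'
  have hz : 0 < 1 - s ^ 2 := one_sub_sq_pos hs.le hs1
  have hca : 0 < arc s := Real.sqrt_pos.2 hz
  have hc2 : arc s ^ 2 = 1 - s ^ 2 := Real.sq_sqrt hz.le
  have N : ∀ {E : Expr}, nonneg1 E e.Q.s0 e.Q.s1 = true → 0 ≤ E.eval [s] :=
    fun he => nonneg1_sound he h1 h2
  have rL : e.Q.rl.ev s ≤ 1 / arc s := by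
    have n : 0 ≤ (Expr.sub (.num 1) (.mul (.pow e.Q.rl.expr 2) cirE)).eval [s] := N er
    simp only [Expr.eval, Q2.eval_expr, eval_cirE, Int.cast_one, ← hc2, sub_nonneg] at n
    exact le_inv_of_sq hca n
  have rU : 1 / arc s ≤ e.Q.ru.ev s := by
    have n0 : 0 ≤ e.Q.ru.expr.eval [s] := N eu0
    have n : 0 ≤ (Expr.sub (.mul (.pow e.Q.ru.expr 2) cirE) (.num 1)).eval [s] := N eu
    rw [Q2.eval_expr] at n0
    simp only [Expr.eval, Q2.eval_expr, eval_cirE, Int.cast_one, ← hc2, sub_nonneg] at n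
    exact inv_le_of_sq hca n0 n
  have hG0 : 0 ≤ P.D.gz := div_nonneg (by exact_mod_cast hG) (by norm_num)
  have hE0 : 0 ≤ P.ez := div_nonneg (by exact_mod_cast hE) (by norm_num)
  have k1 : e.kl.ev s ≤ evE P.D.K s := hR.lamL
  have k2 : evE P.D.K s ≤ e.ku.ev s := hR.lamU
  have n1 := N el
  have n2 := N el'
  have n3 := N esh
  simp only [Expr.eval, Q2.eval_expr, eval_cE, sub_nonneg] at n1 n2 n3
  refine ⟨hR, ?_, ?_, ?_⟩
  · have := mul_le_mul_of_nonneg_left rU hE0
    rw [← div_eq_mul_one_div] at this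
    simp only [ParT.ez] at *
    linarith
  · have := mul_le_mul_of_nonneg_left rL hE0
    rw [← div_eq_mul_one_div] at this
    simp only [ParT.ez] at *
    linarith
  · have := mul_le_mul_of_nonneg_left rU hG0
    rw [← div_eq_mul_one_div] at this
    simp only [Par.gz] at *
    linarith

end Vale.Agent.P237.Petty.Cor.Grid.Tiny
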